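import Crest.Agent.R073.Group

/-! Row 73: the ambient group. -/

set_option autoImplicit false

open scoped Matrix

namespace Crest.Agent.R073

/-- square-summable functions on a set -/
abbrev L2 (X : Type) : Type := lp (fun _ : X => ℂ) 2

theorem memℓp_comp {X : Type} (σ : Equiv.Perm X) (f : L2 X) :
    Memℓp (E := fun _ : X => ℂ) (fun x => f (σ x)) 2 := by
  have h := (memℓp_gen_iff (by norm_num : 0 < (2 : ENNReal).toReal)).1 (lp.memℓp f)
  exact memℓp_gen ((σ.summable_iff (f := fun x => ‖f x‖ ^ (2 : ENNReal).toReal)).2 h)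

/-- the unitary induced by a permutation -/
noncomputable def permU {X : Type} (σ : Equiv.Perm X) : L2 X ≃ₗᵢ[ℂ] L2 X where
  toFun f := ⟨fun x => f (σ⁻¹ x), memℓp_comp σ⁻¹ f⟩
  invFun f := ⟨fun x => f (σ x), memℓp_comp σ f⟩
  map_add' f g := rfl
  map_smul' c f := rfl
  left_inv f := by ext x; simp
  right_inv f := by ext x; simp
  norm_map' f := by
    rw [lp.norm_eq_tsum_rpow (by norm_num : 0 < (2 : ENNReal).toReal),
      lp.norm_eq_tsum_rpow (by norm_num : 0 < (2 : ENNReal).toReal)]
    congr 1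
    exact (σ⁻¹ : Equiv.Perm X).tsum_eq (fun x => ‖f x‖ ^ (2 : ENNReal).toReal)

theorem permU_apply {X : Type} (σ : Equiv.Perm X) (f : L2 X) (x : X) :
    permU σ f x = f (σ⁻¹ x) := rfl

/-- the permutation representation -/
noncomputable def permRep (X : Type) : Equiv.Perm X →* (L2 X ≃ₗᵢ[ℂ] L2 X) where
  toFun := permU
  map_one' := by ext f x; rfl
  map_mul' σ τ := by ext f x; rfl

theorem permU_single {X : Type} [DecidableEq X] (σ : Equiv.Perm X) (x : X) :
    permU σ (lp.single 2 x (1 : ℂ)) = lp.single 2 (σ x) (1 : ℂ) := by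
  ext y
  rw [permU_apply, lp.single_apply, lp.single_apply, Pi.single_apply, Pi.single_apply]
  simp [Equiv.symm_apply_eq]

/-- the quasi-regular representation detects a subgroup -/
theorem exists_rep {G : Type} [Group G] (H : Subgroup G) :
    ∃ (B : Type) (_ : CStarAlgebra B) (w : G →* unitary B) (ξ : B),
      (∀ g ∈ H, (w g : B) * ξ = ξ) ∧ ∀ g, g ∉ H → (w g : B) * ξ ≠ ξ := by
  classical
  let X : Type := G ⧸ H
  let x₀ : X := ((1 : G) : G ⧸ H)
  let d : L2 X := lp.single 2 x₀ (1 : ℂ)
  let w : G →* unitary (L2 X →L[ℂ] L2 X) :=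
    (Unitary.linearIsometryEquiv.symm.toMonoidHom).comp
      ((permRep X).comp (MulAction.toPermHom G X))
  have hw : ∀ g, (w g : L2 X →L[ℂ] L2 X) d = lp.single 2 (g • x₀) (1 : ℂ) := fun g =>
    permU_single (MulAction.toPerm g) x₀
  have hfix : ∀ g : G, g • x₀ = x₀ ↔ g ∈ H := fun g => by
    have : g • x₀ = ((g : G) : G ⧸ H) := by
      have := MulAction.Quotient.smul_coe H g (1 : G)
      rw [smul_eq_mul, mul_one] at this
      exact this
    rw [this, eq_comm, QuotientGroup.eq]
    simp
  refine ⟨L2 X →L[ℂ] L2 X, inferInstance, w, (innerSL ℂ d).smulRight d, fun g hg => ?_,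
    fun g hg h => hg ?_⟩
  · ext1 f
    rw [mul_apply_eq_comp, ContinuousLinearMap.smulRight_apply, map_smul, hw,
      (hfix g).2 hg]
  · have h1 := congrArg (fun T : L2 X →L[ℂ] L2 X => T d) h
    have hd : innerSL ℂ d d = 1 := by
      simp only [innerSL_apply_apply, d]
      rw [lp.inner_single_left, lp.single_apply_self]
      simp
    simp only [mul_apply_eq_comp, ContinuousLinearMap.smulRight_apply, hd,
      one_smul, hw] at h1
    have h2 := congrArg (fun f : L2 X => f x₀) h1
    simp only [d, lp.single_apply_self] at h2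
    by_contra hne
    rw [lp.single_apply_ne _ _ _ (fun h => hne ((hfix g).1 h.symm))] at h2
    exact zero_ne_one h2

/-- a scalar unit as an invertible matrix -/
noncomputable def scalarT : (Matrix (Fin 3) (Fin 3) (LaurentPolynomial F))ˣ where
  val := (LaurentPolynomial.T 1 : LaurentPolynomial F) • (1 : Matrix (Fin 3) (Fin 3) _)
  inv := (LaurentPolynomial.T (-1) : LaurentPolynomial F) • (1 : Matrix (Fin 3) (Fin 3) _)
  val_inv := by
    rw [smul_mul_smul_comm, ← LaurentPolynomial.T_add]; simp
  inv_val := by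
    rw [smul_mul_smul_comm, ← LaurentPolynomial.T_add]; simp

/-- the ambient countable group: `Aff R` embeds, `t` implements the scaling endomorphism, and some
unitary representation has a vector fixed by `Aff R` but not by `t⁻¹ y₃ t`. -/
theorem exists_group : ∃ (G : Type) (_ : Group G) (_ : Countable G) (ι : Aff R →* G) (t : G),
    (∀ g, t * ι g * t⁻¹ = ι (Aff.sg Polynomial.X g)) ∧
    ∃ (B : Type) (_ : CStarAlgebra B) (w : G →* unitary B) (ξ : B),
      (∀ g, (w (ι g) : B) * ξ = ξ) ∧ (w (t⁻¹ * ι (yy 3) * t) : B) * ξ ≠ ξ := by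
  let ι : Aff R →* Aff (LaurentPolynomial F) := Aff.map Polynomial.toLaurent
  have hcL : Countable (LaurentPolynomial F) :=
    (AddMonoidAlgebra.coeff_injective (R := F) (M := ℤ)).countable
  have hc : Countable (Aff (LaurentPolynomial F)) := by
    have hM : Countable (Matrix (Fin 3) (Fin 3) (LaurentPolynomial F)) :=
      inferInstanceAs (Countable (Fin 3 → Fin 3 → LaurentPolynomial F))
    refine Function.Injective.countable (f := fun g : Aff (LaurentPolynomial F) =>
      (g.m, g.γ.val)) fun g h e => ?_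
    simp only [Prod.mk.injEq] at e
    exact Aff.ext e.1 (Units.ext e.2)
  obtain ⟨B, hB, w, ξ, h1, h2⟩ := exists_rep ι.range
  have hval : (scalarT.val) =
      (LaurentPolynomial.T 1 : LaurentPolynomial F) • (1 : Matrix (Fin 3) (Fin 3) _) := rfl
  have hinv : (scalarT⁻¹.val) =
      (LaurentPolynomial.T (-1) : LaurentPolynomial F) • (1 : Matrix (Fin 3) (Fin 3) _) := rfl
  refine ⟨Aff (LaurentPolynomial F), inferInstance, hc, ι, Aff.lin scalarT, fun g => ?_,
    B, hB, w, ξ, fun g => h1 _ ⟨g, rfl⟩, h2 _ ?_⟩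
  · rw [mul_inv_eq_iff_eq_mul]
    refine Aff.ext ?_ (Units.ext ?_)
    · ext1 i
      simp [Aff.lin, ι, Aff.map, Aff.sg, hval, Matrix.smul_mulVec]
    · simp [Aff.lin, ι, Aff.map, Aff.sg, hval]
  · rintro ⟨g, hg⟩
    have h3 := congrFun (congrArg Aff.m hg) 2
    have h4 : Polynomial.toLaurent (g.m 2) = (LaurentPolynomial.T (-1) : LaurentPolynomial F) := by
      simpa [Aff.lin, ι, Aff.map, yy, Aff.tr, hinv, Matrix.smul_mulVec] using h3
    have h5 : Polynomial.toLaurent (Polynomial.X * g.m 2) = Polynomial.toLaurent (1 : R) := by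
      rw [map_mul, h4, Polynomial.toLaurent_X, ← LaurentPolynomial.T_add]; simp
    have h6 := congrArg (fun p : R => p.coeff 0) (Polynomial.toLaurent_injective h5)
    simp at h6

end Crest.Agent.R073
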