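import Crest.Agent.R073.Univ

/-! Row 73: completely contractive matrix approximation of the Cuntz algebra. -/

set_option autoImplicit false

open Crest.AnalysisR.CStarEmbedding
open scoped Matrix ComplexOrder

namespace Crest.Agent.R073
namespace CuntzAux

/-- uniform bound for the compression map -/
theorem psi_norm_le {O : Type} [CStarAlgebra O] {α : Type} [Fintype α] [DecidableEq α]
    (r : α → O) (hr : ∑ l, star (r l) * r l = 1) (z : Matrix α α ℂ) {c : ℝ} (hc : 0 ≤ c)
    (hz : (((c ^ 2 : ℝ) : ℂ) • (1 : Matrix α α ℂ) - zᴴ * z).PosSemidef) :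
    ‖∑ l, ∑ l', z l l' • (star (r l) * r l')‖ ≤ c := by
  let _ := CStarAlgebra.spectralOrder O
  have _ := CStarAlgebra.spectralOrderedRing O
  set Ψ : O := ∑ l, ∑ l', z l l' • (star (r l) * r l') with hΨ
  let w : α → O := fun l => ∑ l', z l l' • r l'
  have hΨw : Ψ = ∑ l, star (r l) * w l := by
    simp only [hΨ, w, Finset.mul_sum, mul_smul_comm]
  have hΨw' : star Ψ = ∑ l, star (w l) * r l := by
    rw [hΨw, star_sum]; simp only [star_mul, star_star]
  have h1 : star Ψ * Ψ ≤ ∑ l, star (w l) * w l := by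
    have h0 : 0 ≤ ∑ l, star (w l - r l * Ψ) * (w l - r l * Ψ) :=
      Finset.sum_nonneg fun l _ => star_mul_self_nonneg _
    have e : ∑ l, star (w l - r l * Ψ) * (w l - r l * Ψ)
        = ∑ l, star (w l) * w l - (∑ l, star (w l) * r l) * Ψ
          - star Ψ * (∑ l, star (r l) * w l) + star Ψ * (∑ l, star (r l) * r l) * Ψ := by
      simp only [Finset.mul_sum, Finset.sum_mul, ← Finset.sum_sub_distrib,
        ← Finset.sum_add_distrib]
      refine Finset.sum_congr rfl fun l _ => ?_
      simp only [star_sub, star_mul]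
      noncomm_ring
    rw [e, ← hΨw, ← hΨw', hr, mul_one] at h0
    have : ∑ l, star (w l) * w l - star Ψ * Ψ - star Ψ * Ψ + star Ψ * Ψ
        = ∑ l, star (w l) * w l - star Ψ * Ψ := by abel
    rw [this] at h0
    exact sub_nonneg.mp h0
  have h2 : ∑ l, star (w l) * w l ≤ algebraMap ℝ O (c ^ 2) := by
    obtain ⟨m, v, hv⟩ := Matrix.posSemidef_iff_eq_sum_vecMulVec.mp hz
    have h0 : 0 ≤ ∑ k, star (∑ l, star (v k l) • r l) * (∑ l, star (v k l) • r l) :=
      Finset.sum_nonneg fun l _ => star_mul_self_nonneg _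
    have e1 : ∑ k, star (∑ l, star (v k l) • r l) * (∑ l, star (v k l) • r l)
        = ∑ l, ∑ l', (∑ k, Matrix.vecMulVec (v k) (star (v k))) l l' • (star (r l) * r l') := by
      simp only [star_sum, star_smul, star_star, Finset.sum_mul_sum, smul_mul_smul_comm,
        Matrix.sum_apply, Matrix.vecMulVec_apply, Finset.sum_smul, Pi.star_apply]
      rw [Finset.sum_comm]
      refine Finset.sum_congr rfl fun l _ => ?_
      rw [Finset.sum_comm]
    have e2 : ∑ l, star (w l) * w l = ∑ l, ∑ l', (zᴴ * z) l l' • (star (r l) * r l') := by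
      simp only [w, star_sum, star_smul, Finset.sum_mul_sum, smul_mul_smul_comm,
        Matrix.mul_apply, Matrix.conjTranspose_apply, Finset.sum_smul]
      rw [Finset.sum_comm]
      refine Finset.sum_congr rfl fun l _ => ?_
      rw [Finset.sum_comm]
    have e3 : algebraMap ℝ O (c ^ 2)
        = ∑ l, ∑ l', (((c ^ 2 : ℝ) : ℂ) • (1 : Matrix α α ℂ)) l l' • (star (r l) * r l') := by
      simp only [Matrix.smul_apply, Matrix.one_apply, smul_eq_mul, mul_ite, mul_one, mul_zero,
        ite_smul, zero_smul, Finset.sum_ite_eq, Finset.mem_univ, if_true, ← Finset.smul_sum, hr]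
      rw [Algebra.algebraMap_eq_smul_one, Complex.coe_smul]
    rw [e1, ← hv] at h0
    rw [e2, e3, ← sub_nonneg]
    simpa only [Matrix.sub_apply, sub_smul, Finset.sum_sub_distrib] using h0
  have h3 : ‖star Ψ * Ψ‖ ≤ c ^ 2 :=
    (CStarAlgebra.norm_le_iff_le_algebraMap _ (sq_nonneg c) (star_mul_self_nonneg Ψ)).mpr
      (h1.trans h2)
  rw [CStarRing.norm_star_mul_self, ← sq] at h3
  exact (pow_le_pow_iff_left₀ (norm_nonneg _) hc two_ne_zero).mp h3

/-- compression of a bounded operator to an orthonormal family -/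
theorem compress_psd {H : Type} [NormedAddCommGroup H] [InnerProductSpace ℂ H]
    {α : Type} [Fintype α] [DecidableEq α] {v : α → H} (hv : Orthonormal ℂ v)
    (T : H →L[ℂ] H) {c : ℝ} (hT : ‖T‖ ≤ c) :
    (((c ^ 2 : ℝ) : ℂ) • (1 : Matrix α α ℂ) -
      (Matrix.of fun l l' => inner ℂ (v l) (T (v l')))ᴴ *
        (Matrix.of fun l l' => inner ℂ (v l) (T (v l')))).PosSemidef := by
  set z : Matrix α α ℂ := Matrix.of fun l l' => inner ℂ (v l) (T (v l')) with hz
  refine Matrix.PosSemidef.of_dotProduct_mulVec_nonneg ?_ fun x => ?_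
  · refine Matrix.IsHermitian.sub ?_ (Matrix.isHermitian_conjTranspose_mul_self z)
    simp [Matrix.IsHermitian, Matrix.conjTranspose_smul]
  · set y : H := ∑ l, x l • v l with hy
    have hzx : ∀ l, (z *ᵥ x) l = inner ℂ (v l) (T y) := by
      intro l
      simp only [hz, hy, Matrix.mulVec, dotProduct, Matrix.of_apply, map_sum, map_smul, inner_sum,
        inner_smul_right, mul_comm]
    have hy2 : ((‖y‖ ^ 2 : ℝ) : ℂ) = star x ⬝ᵥ x := by
      have := hv.inner_sum x x Finset.univ
      rw [← hy, inner_self_eq_norm_sq_to_K] at this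
      simpa [dotProduct] using this
    have e : star x ⬝ᵥ ((((c ^ 2 : ℝ) : ℂ) • (1 : Matrix α α ℂ) - zᴴ * z) *ᵥ x)
        = ((c ^ 2 * ‖y‖ ^ 2 - ∑ l, ‖inner ℂ (v l) (T y)‖ ^ 2 : ℝ) : ℂ) := by
      rw [Matrix.sub_mulVec, dotProduct_sub, Matrix.smul_mulVec, Matrix.one_mulVec,
        dotProduct_smul, ← hy2, ← Matrix.mulVec_mulVec, Matrix.dotProduct_mulVec,
        ← Matrix.star_mulVec]
      simp only [dotProduct, Pi.star_apply, hzx, smul_eq_mul]
      push_cast
      congr 1
      refine Finset.sum_congr rfl fun l _ => ?_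
      rw [Complex.star_def, Complex.conj_mul']
    rw [e]
    have h1 := hv.sum_inner_products_le (T y) (s := Finset.univ)
    have h2 : ‖T y‖ ≤ c * ‖y‖ :=
      (T.le_opNorm y).trans (mul_le_mul_of_nonneg_right hT (norm_nonneg _))
    have h3 : ‖T y‖ ^ 2 ≤ c ^ 2 * ‖y‖ ^ 2 := by
      rw [← mul_pow]; exact pow_le_pow_left₀ (norm_nonneg _) h2 2
    exact_mod_cast sub_nonneg.mpr (h1.trans h3)

section Words

variable {O : Type} [Ring O] [StarRing O]

/-- the Cuntz relations -/
structure Cz (s : Fin 2 → O) : Prop where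
  orth : ∀ i j, star (s i) * s j = if i = j then 1 else 0
  sum : ∑ i, s i * star (s i) = 1

/-- product along a word -/
def Sw (s : Fin 2 → O) {k : ℕ} (l : Fin k → Fin 2) : O := (List.ofFn fun i => s (l i)).prod

omit [StarRing O] in
theorem Sw_zero (s : Fin 2 → O) (l : Fin 0 → Fin 2) : Sw s l = 1 := by simp [Sw]

omit [StarRing O] in
theorem Sw_cons (s : Fin 2 → O) {k : ℕ} (i : Fin 2) (l : Fin k → Fin 2) :
    Sw s (Fin.cons i l : Fin (k + 1) → Fin 2) = s i * Sw s l := by
  simp [Sw, List.ofFn_succ]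

theorem sum_word {M : Type} [AddCommMonoid M] {k : ℕ} (f : (Fin (k + 1) → Fin 2) → M) :
    ∑ l, f l = ∑ i : Fin 2, ∑ l : Fin k → Fin 2, f (Fin.cons i l) := by
  rw [← Fintype.sum_prod_type']
  exact (Fintype.sum_equiv (Fin.consEquiv fun _ => Fin 2) _ _ fun _ => rfl).symm

theorem sum_Sw {s : Fin 2 → O} (hs : Cz s) (k : ℕ) :
    ∑ l : Fin k → Fin 2, Sw s l * star (Sw s l) = 1 := by
  induction k with
  | zero => simp [Sw_zero]
  | succ k ih =>
    rw [sum_word, ← hs.sum]
    refine Finset.sum_congr rfl fun i _ => ?_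
    simp only [Sw_cons, star_mul]
    have : ∀ l : Fin k → Fin 2, s i * Sw s l * (star (Sw s l) * star (s i))
        = s i * (Sw s l * star (Sw s l)) * star (s i) := fun l => by simp only [mul_assoc]
    simp only [this, ← Finset.sum_mul, ← Finset.mul_sum, ih, mul_one]

theorem Sw_orth {s : Fin 2 → O} (hs : Cz s) {k : ℕ} (l l' : Fin k → Fin 2) :
    star (Sw s l) * Sw s l' = if l = l' then 1 else 0 := by
  induction k with
  | zero => simp [Sw_zero, Subsingleton.elim l l']
  | succ k ih =>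
    induction l using Fin.consCases with
    | cons i l =>
    induction l' using Fin.consCases with
    | cons i' l' =>
    rw [Sw_cons, Sw_cons, star_mul, mul_assoc, ← mul_assoc (star (s i)), hs.orth]
    by_cases h : i = i'
    · subst h
      simp [ih]
    · simp [h]

variable [Algebra ℂ O]

/-- the `(j, j')` block of the compression map -/
def Phi (s : Fin 2 → O) (φ : O →ₗ[ℂ] ℂ) (j j' : ℕ) (x : O) : O :=
  ∑ l : Fin j → Fin 2, ∑ l' : Fin j' → Fin 2,
    φ (star (Sw s l) * x * Sw s l') • (Sw s l * star (Sw s l'))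

theorem Phi_left {s : Fin 2 → O} (hs : Cz s) (φ : O →ₗ[ℂ] ℂ) (j j' : ℕ) (i : Fin 2) (x : O) :
    Phi s φ (j + 1) j' (s i * x) = s i * Phi s φ j j' x := by
  unfold Phi
  rw [sum_word, Finset.sum_eq_single i]
  · simp only [Finset.mul_sum, Sw_cons, star_mul, mul_smul_comm]
    refine Finset.sum_congr rfl fun l _ => Finset.sum_congr rfl fun l' _ => ?_
    rw [mul_assoc (star (Sw s l)), ← mul_assoc (star (s i)), hs.orth, if_pos rfl, one_mul,
      mul_assoc (s i)]
  · intro k _ hk
    refine Finset.sum_eq_zero fun l _ => Finset.sum_eq_zero fun l' _ => ?_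
    rw [Sw_cons, star_mul, mul_assoc (star (Sw s l)), ← mul_assoc (star (s k)), hs.orth,
      if_neg hk]
    simp
  · simp

theorem Phi_right {s : Fin 2 → O} (hs : Cz s) (φ : O →ₗ[ℂ] ℂ) (j j' : ℕ) (i : Fin 2) (x : O) :
    Phi s φ j (j' + 1) (x * star (s i)) = Phi s φ j j' x * star (s i) := by
  unfold Phi
  rw [Finset.sum_mul]
  refine Finset.sum_congr rfl fun l _ => ?_
  have e : ∀ (k : Fin 2) (l' : Fin j' → Fin 2), star (Sw s l) * (x * star (s i)) * (s k * Sw s l')
      = star (Sw s l) * x * ((star (s i) * s k) * Sw s l') := fun k l' => by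
    simp only [mul_assoc]
  rw [sum_word, Finset.sum_eq_single i]
  · simp only [Finset.sum_mul, Sw_cons, star_mul, smul_mul_assoc, e, hs.orth, if_true, one_mul,
      mul_assoc]
  · intro k _ hk
    refine Finset.sum_eq_zero fun l' _ => ?_
    rw [Sw_cons, e, hs.orth, if_neg (Ne.symm hk)]
    simp
  · simp

/-- monomials `S_l S_{l'}^*` -/
inductive Mon (s : Fin 2 → O) : O → Prop
  | one : Mon s 1
  | left (i : Fin 2) {x : O} : Mon s x → Mon s (s i * x)
  | right (i : Fin 2) {x : O} : Mon s x → Mon s (x * star (s i))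

theorem Mon.exists_Phi {s : Fin 2 → O} (hs : Cz s) {φ : O →ₗ[ℂ] ℂ}
    (h1 : ∀ j j', Phi s φ j j' 1 = if j = j' then 1 else 0) {x : O} (hx : Mon s x) :
    ∃ d d' : ℕ, ∀ j j', Phi s φ (j + d) (j' + d') x = if j = j' then x else 0 := by
  induction hx with
  | one => exact ⟨0, 0, h1⟩
  | left i _ ih =>
    obtain ⟨d, d', h⟩ := ih
    refine ⟨d + 1, d', fun j j' => ?_⟩
    rw [← add_assoc, Phi_left hs, h]
    split_ifs <;> simp
  | right i _ ih =>
    obtain ⟨d, d', h⟩ := ih
    refine ⟨d, d' + 1, fun j j' => ?_⟩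
    rw [← add_assoc, Phi_right hs, h]
    split_ifs <;> simp

theorem span_left {s : Fin 2 → O} (i : Fin 2) {x : O}
    (hx : x ∈ Submodule.span ℂ {x | Mon s x}) : s i * x ∈ Submodule.span ℂ {x | Mon s x} := by
  induction hx using Submodule.span_induction with
  | mem x hx => exact Submodule.subset_span (Mon.left i hx)
  | zero => simp
  | add x y _ _ hx hy => rw [mul_add]; exact add_mem hx hy
  | smul c x _ hx => rw [mul_smul_comm]; exact Submodule.smul_mem _ _ hx

theorem span_right {s : Fin 2 → O} (i : Fin 2) {x : O}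
    (hx : x ∈ Submodule.span ℂ {x | Mon s x}) :
    x * star (s i) ∈ Submodule.span ℂ {x | Mon s x} := by
  induction hx using Submodule.span_induction with
  | mem x hx => exact Submodule.subset_span (Mon.right i hx)
  | zero => simp
  | add x y _ _ hx hy => rw [add_mul]; exact add_mem hx hy
  | smul c x _ hx => rw [smul_mul_assoc]; exact Submodule.smul_mem _ _ hx

theorem span_star_left {s : Fin 2 → O} (hs : Cz s) (i : Fin 2) {x : O}
    (hx : x ∈ Submodule.span ℂ {x | Mon s x}) :
    star (s i) * x ∈ Submodule.span ℂ {x | Mon s x} := by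
  induction hx using Submodule.span_induction with
  | mem x hx =>
    induction hx with
    | one =>
      rw [mul_one, ← one_mul (star (s i))]
      exact Submodule.subset_span (Mon.right i Mon.one)
    | left k hx _ =>
      rw [← mul_assoc, hs.orth]
      split_ifs
      · rw [one_mul]; exact Submodule.subset_span hx
      · simp
    | right k _ ih => rw [← mul_assoc]; exact span_right k ih
  | zero => simp
  | add x y _ _ hx hy => rw [mul_add]; exact add_mem hx hy
  | smul c x _ hx => rw [mul_smul_comm]; exact Submodule.smul_mem _ _ hx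

theorem adjoin_le_span [StarModule ℂ O] {s : Fin 2 → O} (hs : Cz s) {a : O}
    (ha : a ∈ StarAlgebra.adjoin ℂ (Set.range s)) : a ∈ Submodule.span ℂ {x | Mon s x} := by
  have key : ∀ x ∈ Submodule.span ℂ {x | Mon s x},
      a * x ∈ Submodule.span ℂ {x | Mon s x} ∧ star a * x ∈ Submodule.span ℂ {x | Mon s x} := by
    induction ha using StarAlgebra.adjoin_induction with
    | mem a ha =>
      obtain ⟨i, rfl⟩ := ha
      exact fun x hx => ⟨span_left i hx, span_star_left hs i hx⟩
    | algebraMap r =>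
      intro x hx
      rw [← algebraMap_star_comm, ← Algebra.smul_def, ← Algebra.smul_def]
      exact ⟨Submodule.smul_mem _ _ hx, Submodule.smul_mem _ _ hx⟩
    | add a b _ _ ha hb =>
      intro x hx
      rw [star_add, add_mul, add_mul]
      exact ⟨add_mem (ha x hx).1 (hb x hx).1, add_mem (ha x hx).2 (hb x hx).2⟩
    | mul a b _ _ ha hb =>
      intro x hx
      rw [star_mul, mul_assoc, mul_assoc]
      exact ⟨(ha _ (hb x hx).1).1, (hb _ (ha x hx).2).2⟩
    | star a _ ha =>
      intro x hx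
      rw [star_star]
      exact ⟨(ha x hx).2, (ha x hx).1⟩
  simpa using (key 1 (Submodule.subset_span Mon.one)).1

end Words

theorem count_bound (n d d' : ℕ) : ∃ N : ℕ, n + 1 ≤ N + (d + d') ∧ N ≤ n + 1 ∧
    ∀ (M : Type) [AddCommMonoid M] (x : M),
      ∑ j : Fin (n + 1), ∑ j' : Fin (n + 1), (if (j : ℕ) + d' = j' + d then x else 0) = N • x := by
  classical
  let A : Finset (ℕ × ℕ) :=
    (Finset.range (n + 1) ×ˢ Finset.range (n + 1)).filter fun p => p.1 + d' = p.2 + d
  refine ⟨A.card, ?_, ?_, fun M _ x => ?_⟩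
  · have : (Finset.range (n + 1 - (d + d'))).card ≤ A.card := by
      refine Finset.card_le_card_of_injOn (fun t => (t + d, t + d')) (fun t ht => ?_)
        (fun t _ t' _ h => ?_)
      · simp only [A, Finset.coe_range, Set.mem_Iio, Finset.coe_filter, Finset.mem_product,
          Finset.mem_range, Set.mem_ofPred_eq] at ht ⊢
        omega
      · simp only [Prod.mk.injEq] at h
        omega
    rw [Finset.card_range] at this
    omega
  · have : A.card ≤ (Finset.range (n + 1)).card := by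
      refine Finset.card_le_card_of_injOn Prod.fst (fun p hp => ?_) (fun p hp p' hp' h => ?_)
      · simp only [A, Finset.coe_range, Set.mem_Iio, Finset.coe_filter, Finset.mem_product,
          Finset.mem_range, Set.mem_ofPred_eq] at hp ⊢
        omega
      · simp only [A, Finset.coe_filter, Finset.mem_product,
          Finset.mem_range, Set.mem_ofPred_eq] at hp hp'
        ext <;> omega
    simpa using this
  · rw [Fin.sum_univ_eq_sum_range (fun j => ∑ j' : Fin (n + 1),
      (if j + d' = j' + d then x else 0)) (n + 1)]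
    simp only [fun j : ℕ => Fin.sum_univ_eq_sum_range
      (fun j' => (if j + d' = j' + d then x else 0)) (n + 1)]
    rw [← Finset.sum_product' (f := fun j j' => (if j + d' = j' + d then x else 0)),
      ← Finset.sum_filter, Finset.sum_const]

section Main

variable {O : Type} [CStarAlgebra O]

/-- index set at stage `n`: words of length in `[n, 2n]` -/
abbrev Idx (n : ℕ) : Type := Σ j : Fin (n + 1), (Fin (n + j) → Fin 2)

/-- the normalised adjoint words -/
noncomputable def rr (s : Fin 2 → O) (n : ℕ) (l : Idx n) : O :=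
  (((Real.sqrt (n + 1))⁻¹ : ℝ) : ℂ) • star (Sw s l.2)

theorem star_rr_mul (s : Fin 2 → O) (n : ℕ) (l l' : Idx n) :
    star (rr s n l) * rr s n l' = ((n + 1 : ℂ))⁻¹ • (Sw s l.2 * star (Sw s l'.2)) := by
  simp only [rr, star_smul, star_star, smul_mul_smul_comm]
  congr 1
  rw [Complex.star_def, Complex.conj_ofReal, ← Complex.ofReal_mul, ← mul_inv,
    Real.mul_self_sqrt (by positivity)]
  push_cast
  rfl

theorem sum_rr {s : Fin 2 → O} (hs : Cz s) (n : ℕ) : ∑ l, star (rr s n l) * rr s n l = 1 := by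
  simp only [star_rr_mul, ← Finset.smul_sum]
  rw [Fintype.sum_sigma]
  simp only [sum_Sw hs, Finset.sum_const, Finset.card_univ, Fintype.card_fin]
  rw [← Nat.cast_smul_eq_nsmul ℂ, smul_smul]
  push_cast
  rw [inv_mul_cancel₀ (Nat.cast_add_one_ne_zero n), one_smul]

/-- coefficient matrix -/
noncomputable def zz (s : Fin 2 → O) (φ : O →ₗ[ℂ] ℂ) (n : ℕ) (x : O) : Matrix (Idx n) (Idx n) ℂ :=
  Matrix.of fun l l' => φ (star (Sw s l.2) * x * Sw s l'.2)

/-- the compression map -/
noncomputable def Psi (s : Fin 2 → O) (φ : O →ₗ[ℂ] ℂ) (n : ℕ) : O →ₗ[ℂ] O where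
  toFun x := ∑ l, ∑ l', zz s φ n x l l' • (star (rr s n l) * rr s n l')
  map_add' x y := by
    simp only [zz, Matrix.of_apply, mul_add, add_mul, map_add, add_smul, Finset.sum_add_distrib]
  map_smul' c x := by
    simp only [zz, Matrix.of_apply, mul_smul_comm, smul_mul_assoc, map_smul, smul_eq_mul,
      RingHom.id_apply, Finset.smul_sum, mul_smul]

theorem Psi_eq (s : Fin 2 → O) (φ : O →ₗ[ℂ] ℂ) (n : ℕ) (x : O) :
    Psi s φ n x = ((n + 1 : ℂ))⁻¹ •
      ∑ j : Fin (n + 1), ∑ j' : Fin (n + 1), Phi s φ (n + j) (n + j') x := by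
  change ∑ l, ∑ l', zz s φ n x l l' • (star (rr s n l) * rr s n l') = _
  simp only [star_rr_mul, zz, Matrix.of_apply, Phi, Finset.smul_sum]
  rw [Fintype.sum_sigma]
  refine Finset.sum_congr rfl fun j _ => ?_
  rw [Finset.sum_comm, Fintype.sum_sigma]
  refine Finset.sum_congr rfl fun j' _ => ?_
  rw [Finset.sum_comm]
  simp only [smul_comm ((n + 1 : ℂ))⁻¹]

theorem Psi_mon {s : Fin 2 → O} (hs : Cz s) {φ : O →ₗ[ℂ] ℂ}
    (h1 : ∀ j j', Phi s φ j j' 1 = if j = j' then 1 else 0) {x : O} (hx : Mon s x) :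
    Filter.Tendsto (fun n => Psi s φ n x) Filter.atTop (nhds x) := by
  obtain ⟨d, d', h⟩ := hx.exists_Phi hs h1
  rw [tendsto_iff_norm_sub_tendsto_zero]
  have hlim : Filter.Tendsto (fun n : ℕ => ((d + d' : ℕ) : ℝ) * ‖x‖ * (1 / ((n : ℝ) + 1)))
      Filter.atTop (nhds 0) := by
    simpa using tendsto_one_div_add_atTop_nhds_zero_nat.const_mul (((d + d' : ℕ) : ℝ) * ‖x‖)
  refine squeeze_zero' (Filter.Eventually.of_forall fun _ => norm_nonneg _) ?_ hlim
  filter_upwards [Filter.eventually_ge_atTop (d + d')] with n hn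
  obtain ⟨N, hN1, hN2, hN⟩ := count_bound n d d'
  have e : ∀ j j' : Fin (n + 1), Phi s φ (n + j) (n + j') x
      = if (j : ℕ) + d' = j' + d then x else 0 := by
    intro j j'
    have := h (n + j - d) (n + j' - d')
    rw [Nat.sub_add_cancel (by omega), Nat.sub_add_cancel (by omega)] at this
    rw [this]
    exact if_congr (by omega) rfl rfl
  have hn0 : (0 : ℝ) < (n : ℝ) + 1 := by positivity
  have e2 : Psi s φ n x - x = ((((N : ℝ) - (n + 1)) / (n + 1) : ℝ) : ℂ) • x := by
    rw [Psi_eq]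
    simp only [e, hN]
    rw [← Nat.cast_smul_eq_nsmul ℂ, smul_smul]
    nth_rewrite 2 [← one_smul ℂ x]
    rw [← sub_smul]
    congr 1
    have := Nat.cast_add_one_ne_zero (R := ℂ) n
    push_cast
    field_simp
  rw [e2, norm_smul, Complex.norm_real, Real.norm_eq_abs, abs_div, abs_of_pos hn0, abs_sub_comm,
    abs_of_nonneg (by exact_mod_cast sub_nonneg.mpr (by exact_mod_cast hN2 : (N : ℝ) ≤ n + 1))]
  have h3 : (n : ℝ) + 1 - N ≤ ((d + d' : ℕ) : ℝ) := by
    have : ((n + 1 : ℕ) : ℝ) ≤ ((N + (d + d') : ℕ) : ℝ) := by exact_mod_cast hN1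
    push_cast at this ⊢
    linarith
  calc ((n : ℝ) + 1 - N) / (n + 1) * ‖x‖ ≤ ((d + d' : ℕ) : ℝ) / (n + 1) * ‖x‖ := by gcongr
    _ = _ := by ring

theorem Psi_tendsto {s : Fin 2 → O} (hs : Cz s) {φ : O →ₗ[ℂ] ℂ}
    (h1 : ∀ j j', Phi s φ j j' 1 = if j = j' then 1 else 0)
    (hb : ∀ n x, ‖Psi s φ n x‖ ≤ ‖x‖)
    (hd : (StarAlgebra.adjoin ℂ (Set.range s)).topologicalClosure = ⊤) (x : O) :
    Filter.Tendsto (fun n => Psi s φ n x) Filter.atTop (nhds x) := by
  have hspan : ∀ y ∈ Submodule.span ℂ {x | Mon s x},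
      Filter.Tendsto (fun n => Psi s φ n y) Filter.atTop (nhds y) := by
    intro y hy
    induction hy using Submodule.span_induction with
    | mem y hy => exact Psi_mon hs h1 hy
    | zero => simp
    | add x y _ _ hx hy => simpa only [map_add] using hx.add hy
    | smul c x _ hx => simpa only [map_smul] using hx.const_smul c
  rw [Metric.tendsto_atTop]
  intro ε hε
  have hx : x ∈ closure (StarAlgebra.adjoin ℂ (Set.range s) : Set O) := by
    have : x ∈ (StarAlgebra.adjoin ℂ (Set.range s)).topologicalClosure := by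
      rw [hd]; trivial
    exact this
  obtain ⟨y, hy, hxy⟩ := Metric.mem_closure_iff.mp hx (ε / 3) (by positivity)
  obtain ⟨N, hN⟩ := Metric.tendsto_atTop.mp (hspan y (adjoin_le_span hs hy)) (ε / 3)
    (by positivity)
  refine ⟨N, fun n hn => ?_⟩
  have h2 : dist (Psi s φ n x) (Psi s φ n y) ≤ dist x y := by
    rw [dist_eq_norm, dist_eq_norm, ← map_sub]; exact hb n _
  have h3 := hN n hn
  have h4 := dist_triangle4 (Psi s φ n x) (Psi s φ n y) y x
  rw [dist_comm y x] at h4
  linarith

end Main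

end CuntzAux

open CuntzAux in
theorem cuntz_approx {O : Type} [CStarAlgebra O] {s₁ s₂ : O} (h : IsCuntzTwo O s₁ s₂)
    {σ : Type} [Fintype σ] (b : σ → O) {c δ : ℝ} (hb : ∀ s, ‖b s‖ ≤ c) (hδ : 0 < δ) :
    ∃ (α : Type) (_ : Fintype α) (_ : DecidableEq α) (r : α → O) (z : σ → Matrix α α ℂ),
      ∑ l, star (r l) * r l = 1 ∧
      (∀ s, (((c ^ 2 : ℝ) : ℂ) • (1 : Matrix α α ℂ) - (z s)ᴴ * z s).PosSemidef) ∧
      ∀ s, ‖b s - ∑ l, ∑ l', z s l l' • (star (r l) * r l')‖ ≤ δ := by
  obtain ⟨h11, h22, hsum, hd, huniv⟩ := h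
  obtain ⟨H, _, _, _, t₁, t₂, E, Ω, ht1, ht2, hts, hΩ, hΩE, hE, hEo⟩ := exists_cuntz_rep
  obtain ⟨π, hπ1, hπ2⟩ := huniv (H →L[ℂ] H) t₁ t₂ ht1 ht2 hts
  have h12 : star s₁ * s₂ = 0 := by
    have e1 : star s₂ * (s₁ * star s₁ + s₂ * star s₂) * s₂ = star s₂ * s₂ := by
      rw [hsum, mul_one]
    have e2 : star s₂ * (s₁ * star s₁ + s₂ * star s₂) * s₂
        = star (star s₁ * s₂) * (star s₁ * s₂) + (star s₂ * s₂) * (star s₂ * s₂) := by
      simp only [star_mul, star_star]; noncomm_ring
    rw [e2, h22, mul_one, add_eq_right] at e1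
    exact (CStarRing.star_mul_self_eq_zero_iff _).mp e1
  have h21 : star s₂ * s₁ = 0 := by simpa using congrArg star h12
  let s : Fin 2 → O := ![s₁, s₂]
  have hs : Cz s := by
    refine ⟨fun i j => ?_, ?_⟩
    · fin_cases i <;> fin_cases j <;> simp [s, h11, h22, h12, h21]
    · simpa [s, Fin.sum_univ_two] using hsum
  have hrange : Set.range s = {s₁, s₂} := by simp [s, Set.pair_comm]
  let φ : O →ₗ[ℂ] ℂ :=
    { toFun := fun x => inner ℂ Ω (π x Ω)
      map_add' := fun x y => by simp
      map_smul' := fun c x => by simp }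
  have hφ : ∀ a x a' : O, φ (star a * x * a') = inner ℂ (π a Ω) (π x (π a' Ω)) := by
    intro a x a'
    change inner ℂ Ω (π (star a * x * a') Ω) = _
    rw [map_mul, map_mul, map_star, ContinuousLinearMap.star_eq_adjoint,
      mul_apply_eq_comp, mul_apply_eq_comp,
      ContinuousLinearMap.adjoint_inner_right]
  have hmem : ∀ (k : ℕ) (l : Fin k → Fin 2), π (Sw s l) Ω ∈ E k := by
    intro k
    induction k with
    | zero => intro l; simpa [Sw_zero] using hΩE
    | succ k ih =>
      intro l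
      induction l using Fin.consCases with
      | cons i l =>
      rw [Sw_cons, map_mul, mul_apply_eq_comp]
      fin_cases i
      · simpa [s, hπ1] using (hE k _ (ih l)).1
      · simpa [s, hπ2] using (hE k _ (ih l)).2
  have hφ1 : φ 1 = 1 := by
    change inner ℂ Ω (π 1 Ω) = 1
    rw [map_one, one_apply_eq_self, inner_self_eq_norm_sq_to_K, hΩ]
    simp
  have hsame : ∀ (k : ℕ) (l l' : Fin k → Fin 2),
      φ (star (Sw s l) * 1 * Sw s l') = if l = l' then 1 else 0 := by
    intro k l l'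
    rw [mul_one, Sw_orth hs]
    split_ifs <;> simp [hφ1]
  have hdiff : ∀ (k k' : ℕ) (l : Fin k → Fin 2) (l' : Fin k' → Fin 2), k ≠ k' →
      φ (star (Sw s l) * 1 * Sw s l') = 0 := by
    intro k k' l l' hk
    rw [hφ, map_one, one_apply_eq_self]
    exact hEo k k' hk _ (hmem k l) _ (hmem k' l')
  have h1 : ∀ j j', Phi s φ j j' 1 = if j = j' then 1 else 0 := by
    intro j j'
    unfold Phi
    split_ifs with hj
    · subst hj
      simp only [hsame, ite_smul, one_smul, zero_smul, Finset.sum_ite_eq, Finset.mem_univ, if_true]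
      exact sum_Sw hs j
    · simp only [hdiff _ _ _ _ hj, zero_smul, Finset.sum_const_zero]
  have horth : ∀ n, Orthonormal ℂ fun l : Idx n => π (Sw s l.2) Ω := by
    intro n
    rw [orthonormal_iff_ite]
    rintro ⟨j, l⟩ ⟨j', l'⟩
    have := hφ (Sw s l) 1 (Sw s l')
    rw [map_one, one_apply_eq_self] at this
    rw [← this]
    by_cases hj : j = j'
    · subst hj
      rw [hsame]
      simp
    · rw [hdiff _ _ _ _ (fun h => hj (Fin.ext (by omega))), if_neg (fun h => hj (Sigma.mk.inj h).1)]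
  have hpsd : ∀ n (x : O) (c : ℝ), ‖x‖ ≤ c →
      (((c ^ 2 : ℝ) : ℂ) • (1 : Matrix (Idx n) (Idx n) ℂ) -
        (zz s φ n x)ᴴ * zz s φ n x).PosSemidef := by
    intro n x c hc
    have := compress_psd (horth n) (π x)
      ((NonUnitalStarAlgHom.norm_apply_le π x).trans hc)
    simpa only [zz, hφ] using this
  have hbd : ∀ n x, ‖Psi s φ n x‖ ≤ ‖x‖ := fun n x =>
    psi_norm_le (rr s n) (sum_rr hs n) _ (norm_nonneg x) (hpsd n x _ le_rfl)
  have hlim := Psi_tendsto hs h1 hbd (by rw [hrange]; exact hd)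
  have hev : ∀ᶠ n in Filter.atTop, ∀ t, dist (Psi s φ n (b t)) (b t) < δ :=
    Filter.eventually_all.mpr fun t => Metric.tendsto_nhds.mp (hlim (b t)) δ hδ
  obtain ⟨n, hn⟩ := hev.exists
  refine ⟨Idx n, inferInstance, inferInstance, rr s n, fun t => zz s φ n (b t), sum_rr hs n,
    fun t => hpsd n _ c (hb t), fun t => ?_⟩
  have := (hn t).le
  rw [dist_comm, dist_eq_norm] at this
  exact this

end Crest.Agent.R073
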