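import Mathlib
import Crest.Prelude.Def_CStarEmbedding

/-! Row 73: shared definitions. -/

set_option autoImplicit false

open scoped Matrix

namespace Crest.Agent.R073

instance fact101 : Fact (Nat.Prime 101) := ⟨by norm_num⟩

/-- the prime field -/
abbrev F : Type := ZMod 101

/-- the polynomial ring -/
abbrev R : Type := Polynomial F

/-- the commutator of `a` and `b` is central in the group they generate -/
def Heis {Λ : Type} [Group Λ] (a b : Λ) : Prop :=
  Commute (a * b * a⁻¹ * b⁻¹) a ∧ Commute (a * b * a⁻¹ * b⁻¹) b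

/-- relations giving the spectral gap -/
structure Kaz {Λ : Type} [Group Λ] (y : Fin 4 → Λ) : Prop where
  pow : ∀ i, y i ^ 101 = 1
  h01 : Heis (y 0) (y 1)
  h12 : Heis (y 1) (y 2)
  h20 : Heis (y 2) (y 0)
  h13 : Heis (y 1) (y 3)
  c03 : Commute (y 0) (y 3)
  c23 : Commute (y 2) (y 3)

/-- the sum of the four averaging projections -/
noncomputable def avS {Λ D : Type} [Group Λ] [Ring D] [Algebra ℂ D] (ρ : Λ →* D) (y : Fin 4 → Λ) :
    D := ∑ i, ∑ j : Fin 101, (1 / 101 : ℂ) • ρ (y i ^ (j : ℕ))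

/-- the affine group -/
@[ext] structure Aff (S : Type) [CommRing S] where
  /-- translation part -/
  m : Fin 3 → S
  /-- linear part -/
  γ : (Matrix (Fin 3) (Fin 3) S)ˣ

namespace Aff

variable {S S' : Type} [CommRing S] [CommRing S']

instance : Mul (Aff S) := ⟨fun g h => ⟨g.m + g.γ.val *ᵥ h.m, g.γ * h.γ⟩⟩
instance : One (Aff S) := ⟨⟨0, 1⟩⟩
instance : Inv (Aff S) := ⟨fun g => ⟨-((g.γ⁻¹).val *ᵥ g.m), g.γ⁻¹⟩⟩

@[simp] theorem mul_m (g h : Aff S) : (g * h).m = g.m + g.γ.val *ᵥ h.m := rfl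
@[simp] theorem mul_γ (g h : Aff S) : (g * h).γ = g.γ * h.γ := rfl
@[simp] theorem one_m : (1 : Aff S).m = 0 := rfl
@[simp] theorem one_γ : (1 : Aff S).γ = 1 := rfl
@[simp] theorem inv_m (g : Aff S) : g⁻¹.m = -((g.γ⁻¹).val *ᵥ g.m) := rfl
@[simp] theorem inv_γ (g : Aff S) : g⁻¹.γ = g.γ⁻¹ := rfl

instance : Group (Aff S) := Group.ofLeftAxioms
  (fun a b c => Aff.ext (by simp [Matrix.mulVec_add, add_assoc]) (mul_assoc _ _ _))
  (fun a => Aff.ext (by simp) (one_mul _))
  (fun a => Aff.ext (by simp) (inv_mul_cancel _))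

/-- translation -/
def tr (m : Fin 3 → S) : Aff S := ⟨m, 1⟩

/-- linear map -/
def lin (γ : (Matrix (Fin 3) (Fin 3) S)ˣ) : Aff S := ⟨0, γ⟩

/-- change of rings -/
def map (f : S →+* S') : Aff S →* Aff S' where
  toFun g := ⟨f ∘ g.m, Units.map (f.mapMatrix : Matrix (Fin 3) (Fin 3) S →+* _).toMonoidHom g.γ⟩
  map_one' := Aff.ext (by ext; simp) (map_one _)
  map_mul' g h := Aff.ext (by ext i; simp [Matrix.mulVec, dotProduct]) (map_mul _ _ _)

/-- the endomorphism scaling translations by `x` -/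
def sg (x : S) : Aff S →* Aff S where
  toFun g := ⟨x • g.m, g.γ⟩
  map_one' := Aff.ext (by simp) rfl
  map_mul' g h := Aff.ext (by simp [Matrix.mulVec_smul]) rfl

/-- the action on vectors -/
def act : Aff S →* Equiv.Perm (Fin 3 → S) where
  toFun g :=
    { toFun := fun v => g.m + g.γ.val *ᵥ v
      invFun := fun v => (g.γ⁻¹).val *ᵥ (v - g.m)
      left_inv := fun v => by simp
      right_inv := fun v => by simp }
  map_one' := by ext v; simp
  map_mul' g h := by ext v; simp [Matrix.mulVec_add, add_assoc]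

theorem act_apply (g : Aff S) (v : Fin 3 → S) : act g v = g.m + g.γ.val *ᵥ v := rfl

/-- elementary matrix as a unit -/
def el (i j : Fin 3) (h : i ≠ j) (c : S) : (Matrix (Fin 3) (Fin 3) S)ˣ where
  val := Matrix.transvection i j c
  inv := Matrix.transvection i j (-c)
  val_inv := by rw [Matrix.transvection_mul_transvection_same _ _ h]; simp
  inv_val := by rw [Matrix.transvection_mul_transvection_same _ _ h]; simp

end Aff

/-- the four generators -/
noncomputable def yy : Fin 4 → Aff R :=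
  ![Aff.lin (Aff.el 0 1 (by decide) 1), Aff.lin (Aff.el 1 2 (by decide) 1),
    Aff.lin (Aff.el 2 0 (by decide) Polynomial.X), Aff.tr (Pi.single 2 1)]

/-- constant translations -/
noncomputable def tc (w : Fin 3 → F) : Aff R := Aff.tr fun i => Polynomial.C (w i)

/-- permutation matrix -/
def pm {Ω : Type} [DecidableEq Ω] (σ : Equiv.Perm Ω) : Matrix Ω Ω ℂ :=
  Matrix.of fun u v => if u = σ v then 1 else 0

/-- elementary tensor -/
def tens {Ω B : Type} [SMul ℂ B] (b : B) (a : Matrix Ω Ω ℂ) : CStarMatrix Ω Ω B :=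
  CStarMatrix.ofMatrix (Matrix.of fun u v => a u v • b)

/-- the data of a finite model with `K` levels -/
structure Model (K : ℕ) (Ω : Type) [Fintype Ω] [DecidableEq Ω] (a : Aff R →* Equiv.Perm Ω)
    (P : ℕ → Matrix Ω Ω ℂ) (J : Matrix Ω Ω ℂ) : Prop where
  P_star : ∀ j, (P j)ᴴ = P j
  P_transpose : ∀ j, (P j)ᵀ = P j
  P_mul : ∀ j l, j ≤ l → P j * P l = P j
  P_comm : ∀ g j, Commute (pm (a g)) (P j)
  P_bicomm : ∀ Y : Matrix Ω Ω ℂ, (∀ i, Commute (pm (a (yy i))) Y) → ∀ j, Commute (P j) Y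
  P_zero : ∀ g, pm (a g) * P 0 = P 0
  P_ne : P 0 ≠ 0
  J_inter : ∀ g, pm (a (Aff.sg Polynomial.X g)) * J = J * pm (a g)
  J_P : ∀ j, P (j + 1) * J = J * P j
  J_orth : ∀ w : Fin 3 → F, w ≠ 0 → Jᴴ * pm (a (tc w)) * J = 0
  J_idem : Jᴴ * J * (Jᴴ * J) = Jᴴ * J
  J_level : ∀ j, j + 1 ≤ K → Jᴴ * J * P j = P j

/-- bounded sequences -/
def BSeq (D : ℕ → Type) [∀ n, CStarAlgebra (D n)] : StarSubalgebra ℂ (∀ n, D n) where
  carrier := {x | ∃ C : ℝ, ∀ n, ‖x n‖ ≤ C}
  mul_mem' := by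
    rintro x y ⟨C, hC⟩ ⟨C', hC'⟩
    exact ⟨C * C', fun n => (norm_mul_le _ _).trans
      (mul_le_mul (hC n) (hC' n) (norm_nonneg _) ((norm_nonneg _).trans (hC n)))⟩
  add_mem' := by
    rintro x y ⟨C, hC⟩ ⟨C', hC'⟩
    exact ⟨C + C', fun n => (norm_add_le _ _).trans (add_le_add (hC n) (hC' n))⟩
  algebraMap_mem' c := ⟨‖c‖, fun n => by
    rw [Pi.algebraMap_apply, Algebra.algebraMap_eq_smul_one, norm_smul]
    exact mul_le_of_le_one_right (norm_nonneg _) (IsStarProjection.one _).norm_le⟩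
  star_mem' := by
    rintro x ⟨C, hC⟩
    exact ⟨C, fun n => by simpa using hC n⟩

end Crest.Agent.R073
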