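import Crest.Agent.R073.Group

/-! Row 73: the finite models. -/

set_option autoImplicit false

open scoped Matrix

namespace Crest.Agent.R073

section FM

variable {Ω : Type} [DecidableEq Ω]

/-- matrix of a map -/
def fm (f : Ω → Ω) : Matrix Ω Ω ℂ := Matrix.of fun u v => if u = f v then 1 else 0

theorem pm_eq_fm (σ : Equiv.Perm Ω) : pm σ = fm σ := rfl

theorem fm_mul [Fintype Ω] (f g : Ω → Ω) : fm f * fm g = fm (fun v => f (g v)) := by
  ext u v
  simp [fm, Matrix.mul_apply]

theorem fm_star_mul [Fintype Ω] (f g : Ω → Ω) (u v : Ω) :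
    ((fm f)ᴴ * fm g) u v = if f u = g v then 1 else 0 := by
  simp only [fm, Matrix.mul_apply, Matrix.conjTranspose_apply, Matrix.of_apply]
  rw [Finset.sum_eq_single (g v)]
  · by_cases h : f u = g v
    · simp [h]
    · simp [h, Ne.symm h]
  · intro b _ hb
    simp [hb]
  · simp

end FM

section Gen

variable {S : Type} [CommRing S] [Fintype S] [DecidableEq S]

/-- translation matrix -/
def TT (v : Fin 3 → S) : Matrix (Fin 3 → S) (Fin 3 → S) ℂ := fm fun w => v + w

theorem pm_act_tr (v : Fin 3 → S) : pm (Aff.act (Aff.tr v)) = TT v := by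
  rw [pm_eq_fm, TT]
  congr 1
  funext w
  simp [Aff.act_apply, Aff.tr]

theorem TT_add (v w : Fin 3 → S) : TT v * TT w = TT (v + w) := by
  rw [TT, TT, fm_mul, TT]
  congr 1
  funext u
  rw [add_assoc]

theorem TT_star (v : Fin 3 → S) : (TT v)ᴴ = TT (-v) := by
  rw [← pm_act_tr, pm_conjTranspose, ← map_inv, ← Aff.tr_neg, pm_act_tr]

theorem TT_transpose (v : Fin 3 → S) : (TT v)ᵀ = TT (-v) := by
  rw [← pm_act_tr, pm_transpose, ← map_inv, ← Aff.tr_neg, pm_act_tr]

theorem pm_act_mul_TT (g : Aff S) (v : Fin 3 → S) :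
    pm (Aff.act g) * TT v = TT (g.γ.val *ᵥ v) * pm (Aff.act g) := by
  rw [← pm_act_tr, ← pm_act_tr, ← pm_mul, ← pm_mul, ← map_mul, ← map_mul, Aff.mul_tr]

/-- averaging over the translations by multiples of `y` -/
noncomputable def PP (y : S) : Matrix (Fin 3 → S) (Fin 3 → S) ℂ :=
  ((Fintype.card (Fin 3 → S) : ℂ)⁻¹) • ∑ v : Fin 3 → S, TT (y • v)

theorem card_ne : ((Fintype.card (Fin 3 → S) : ℂ)) ≠ 0 := by
  exact_mod_cast Fintype.card_ne_zero

theorem PP_star (y : S) : (PP y)ᴴ = PP y := by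
  rw [PP, Matrix.conjTranspose_smul, Matrix.conjTranspose_sum]
  congr 1
  · simp
  · refine Fintype.sum_equiv (Equiv.neg _) _ _ fun v => ?_
    rw [TT_star]; simp

theorem PP_transpose (y : S) : (PP y)ᵀ = PP y := by
  rw [PP, Matrix.transpose_smul, Matrix.transpose_sum]
  congr 1
  refine Fintype.sum_equiv (Equiv.neg _) _ _ fun v => ?_
  rw [TT_transpose]; simp

theorem PP_mul_TT (y : S) (m : Fin 3 → S) : PP y * TT (y • m) = PP y := by
  rw [PP, Matrix.smul_mul, Finset.sum_mul]
  congr 1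
  refine Fintype.sum_equiv (Equiv.addRight m) _ _ fun v => ?_
  rw [TT_add]; simp [smul_add]

theorem TT_mul_PP (y : S) (m : Fin 3 → S) : TT (y • m) * PP y = PP y := by
  rw [PP, Matrix.mul_smul, Finset.mul_sum]
  congr 1
  refine Fintype.sum_equiv (Equiv.addLeft m) _ _ fun v => ?_
  rw [TT_add]; simp [smul_add]

theorem PP_mul_PP (y z : S) : PP y * PP (y * z) = PP y := by
  conv_lhs => rw [PP.eq_def (y * z)]
  rw [Matrix.mul_smul, Finset.mul_sum]
  have : ∀ v : Fin 3 → S, PP y * TT ((y * z) • v) = PP y := fun v => by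
    rw [mul_smul, PP_mul_TT]
  simp only [this, Finset.sum_const, Finset.card_univ]
  rw [← Nat.cast_smul_eq_nsmul ℂ, smul_smul, inv_mul_cancel₀ card_ne, one_smul]

theorem PP_comm (y : S) (g : Aff S) : Commute (pm (Aff.act g)) (PP y) := by
  unfold Commute SemiconjBy
  rw [PP, Matrix.mul_smul, Matrix.smul_mul, Finset.mul_sum, Finset.sum_mul]
  congr 1
  let e : (Fin 3 → S) ≃ (Fin 3 → S) :=
    { toFun := fun v => g.γ.val *ᵥ v
      invFun := fun v => (g.γ⁻¹).val *ᵥ v
      left_inv := fun v => by simp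
      right_inv := fun v => by simp }
  refine Fintype.sum_equiv e _ _ fun v => ?_
  rw [pm_act_mul_TT, Matrix.mulVec_smul]
  rfl

theorem PP_one_apply (u w : Fin 3 → S) :
    PP (1 : S) u w = (Fintype.card (Fin 3 → S) : ℂ)⁻¹ := by
  simp only [PP, one_smul, Matrix.smul_apply, Matrix.sum_apply, TT, fm, Matrix.of_apply]
  rw [Finset.sum_eq_single (u - w)]
  · simp
  · intro b _ hb
    rw [if_neg]
    intro h
    exact hb (by rw [h]; simp)
  · simp

theorem pm_mul_PP_one (σ : Equiv.Perm (Fin 3 → S)) : pm σ * PP (1 : S) = PP 1 := by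
  ext u w
  simp only [Matrix.mul_apply, PP_one_apply, pm, Matrix.of_apply]
  rw [Finset.sum_eq_single (σ⁻¹ u)]
  · simp
  · intro b _ hb
    rw [if_neg, zero_mul]
    intro h
    exact hb (by rw [h]; simp)
  · simp

theorem PP_one_ne : PP (1 : S) ≠ 0 := by
  intro h
  have := PP_one_apply (S := S) 0 0
  rw [h] at this
  exact inv_ne_zero card_ne this.symm

/-- the kernel of multiplication by `x` -/
def kerS (x : S) : Finset (Fin 3 → S) := Finset.univ.filter fun v => x • v = 0

theorem kerS_card_pos (x : S) : 0 < (kerS x).card :=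
  Finset.card_pos.2 ⟨0, by simp [kerS]⟩

/-- the partial isometry -/
noncomputable def JJ (x : S) : Matrix (Fin 3 → S) (Fin 3 → S) ℂ :=
  (((Real.sqrt (kerS x).card)⁻¹ : ℝ) : ℂ) • fm fun v => x • v

theorem JJ_star_mul (x : S) :
    (JJ x)ᴴ * JJ x = (((kerS x).card : ℂ)⁻¹) • ∑ m ∈ kerS x, TT m := by
  rw [JJ, Matrix.conjTranspose_smul, Matrix.smul_mul, Matrix.mul_smul, smul_smul]
  congr 1
  · rw [RCLike.star_def, Complex.conj_ofReal, ← Complex.ofReal_mul, ← mul_inv,
      Real.mul_self_sqrt (Nat.cast_nonneg _)]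
    simp
  · ext u v
    rw [fm_star_mul]
    simp only [Matrix.sum_apply, TT, fm, Matrix.of_apply]
    by_cases h : x • u = x • v
    · rw [if_pos h, Finset.sum_eq_single (u - v)]
      · simp
      · intro b _ hb
        rw [if_neg]
        intro h'
        exact hb (by rw [h']; simp)
      · intro h'
        exact absurd (by simp [kerS, smul_sub, h]) h'
    · rw [if_neg h]
      refine (Finset.sum_eq_zero fun b hb => ?_).symm
      rw [if_neg]
      intro h'
      apply h
      have hb' : x • b = 0 := by simpa [kerS] using hb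
      rw [h', smul_add, hb', zero_add]

theorem JJ_mul_of (x : S) (Q : Matrix (Fin 3 → S) (Fin 3 → S) ℂ)
    (hQ : ∀ m ∈ kerS x, TT m * Q = Q) : (JJ x)ᴴ * JJ x * Q = Q := by
  rw [JJ_star_mul, Matrix.smul_mul, Finset.sum_mul, Finset.sum_congr rfl hQ, Finset.sum_const,
    ← Nat.cast_smul_eq_nsmul ℂ, smul_smul, inv_mul_cancel₀, one_smul]
  exact_mod_cast (kerS_card_pos x).ne'

theorem JJ_idem (x : S) : (JJ x)ᴴ * JJ x * ((JJ x)ᴴ * JJ x) = (JJ x)ᴴ * JJ x := by
  refine JJ_mul_of x _ fun m hm => ?_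
  rw [JJ_star_mul, Matrix.mul_smul, Finset.mul_sum]
  congr 1
  have hm' : x • m = 0 := by simpa [kerS] using hm
  refine Finset.sum_equiv (Equiv.addLeft m) (fun v => ?_) fun v _ => ?_
  · simp [kerS, smul_add, hm']
  · rw [TT_add]; simp

theorem PP_mul_JJ (x y : S) : PP (y * x) * JJ x = JJ x * PP y := by
  rw [PP, PP, JJ]
  simp only [Matrix.smul_mul, Matrix.mul_smul, Finset.sum_mul, Finset.mul_sum]
  have e : ∀ v : Fin 3 → S, TT ((y * x) • v) * (fm fun v : Fin 3 → S => x • v) =
      (fm fun v : Fin 3 → S => x • v) * TT (y • v) := by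
    intro v
    rw [TT, TT, fm_mul, fm_mul]
    congr 1
    funext w
    rw [smul_add, smul_smul, mul_comm]
  simp only [e, Finset.smul_sum]
  refine Finset.sum_congr rfl fun v _ => ?_
  rw [smul_comm]

theorem JJ_inter (x : S) (g : Aff S) :
    pm (Aff.act (Aff.sg x g)) * JJ x = JJ x * pm (Aff.act g) := by
  rw [JJ, Matrix.smul_mul, Matrix.mul_smul, pm_eq_fm, pm_eq_fm, fm_mul, fm_mul]
  congr 2
  funext w
  simp [Aff.act_apply, Aff.sg, Matrix.mulVec_smul, smul_add]

theorem JJ_orth (x : S) (m : Fin 3 → S) (hm : ∀ v : Fin 3 → S, x • v ≠ m) :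
    (JJ x)ᴴ * TT m * JJ x = 0 := by
  rw [JJ, Matrix.conjTranspose_smul, Matrix.smul_mul, Matrix.mul_smul, Matrix.smul_mul,
    Matrix.mul_assoc, TT, fm_mul]
  have : (fm fun v : Fin 3 → S => x • v)ᴴ * (fm fun v => m + x • v) = 0 := by
    ext u v
    rw [fm_star_mul, if_neg, Matrix.zero_apply]
    intro h
    exact hm (u - v) (by rw [smul_sub, h]; simp)
  rw [this, smul_zero, smul_zero]

end Gen

theorem exists_model (K : ℕ) (hK : 1 ≤ K) :
    ∃ (Ω : Type) (_ : Fintype Ω) (_ : DecidableEq Ω) (a : Aff R →* Equiv.Perm Ω)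
      (P : ℕ → Matrix Ω Ω ℂ) (J : Matrix Ω Ω ℂ), Model K Ω a P J := by
  classical
  let f : R := Polynomial.X ^ K
  have hf : f.Monic := Polynomial.monic_X_pow K
  let S : Type := AdjoinRoot f
  haveI : Module.Finite F S := (AdjoinRoot.powerBasis' hf).finite
  haveI : Finite S := Module.finite_of_finite F
  letI : Fintype S := Fintype.ofFinite S
  let q : R →+* S := AdjoinRoot.mk f
  have hq : Function.Surjective q := AdjoinRoot.mk_surjective
  let x : S := q Polynomial.X
  have hmap : ∀ m : Fin 3 → R, Aff.map q (Aff.tr m) = Aff.tr (q ∘ m) := fun m =>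
    Aff.ext rfl (map_one (Units.map _))
  refine ⟨Fin 3 → S, inferInstance, inferInstance, Aff.act.comp (Aff.map q), fun j => PP (x ^ j),
    JJ x, ?_⟩
  refine ⟨fun j => PP_star _, fun j => PP_transpose _, ?_, fun g j => PP_comm _ _, ?_, ?_, ?_, ?_,
    ?_, ?_, JJ_idem x, ?_⟩
  · intro j l hjl
    obtain ⟨d, rfl⟩ := Nat.exists_eq_add_of_le hjl
    rw [pow_add, PP_mul_PP]
  · intro Y hY j
    let H : Subgroup (Aff R) :=
      { carrier := {g | Commute (pm ((Aff.act.comp (Aff.map q)) g)) Y}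
        mul_mem' := fun {a b} ha hb => by
          change Commute _ _
          rw [map_mul, pm_mul]
          exact Commute.mul_left ha hb
        one_mem' := by
          change Commute _ _
          rw [map_one, pm_one]
          exact Commute.one_left _
        inv_mem' := fun {a} ha => by
          change Commute _ _
          change Commute _ _ at ha
          rw [map_inv]
          set σ := (Aff.act.comp (Aff.map q)) a
          have h1 : pm σ⁻¹ * pm σ = 1 := by rw [← pm_mul, inv_mul_cancel, pm_one]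
          have h2 : pm σ * pm σ⁻¹ = 1 := by rw [← pm_mul, mul_inv_cancel, pm_one]
          unfold Commute SemiconjBy at ha ⊢
          calc pm σ⁻¹ * Y = pm σ⁻¹ * Y * (pm σ * pm σ⁻¹) := by rw [h2, mul_one]
            _ = pm σ⁻¹ * (Y * pm σ) * pm σ⁻¹ := by simp only [mul_assoc]
            _ = pm σ⁻¹ * (pm σ * Y) * pm σ⁻¹ := by rw [ha]
            _ = Y * pm σ⁻¹ := by rw [← mul_assoc, h1, one_mul] }
    have hT : ∀ v : Fin 3 → S, Commute (TT v) Y := by
      intro v
      choose m hm using fun i => hq (v i)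
      have h1 : Aff.tr m ∈ H := tr_mem_of_yy H hY m
      change Commute (pm (Aff.act (Aff.map q (Aff.tr m)))) Y at h1
      rw [hmap, pm_act_tr] at h1
      have : q ∘ m = v := funext hm
      rwa [this] at h1
    change Commute (PP (x ^ j)) Y
    rw [PP]
    exact (Commute.sum_left _ _ _ fun v _ => hT _).smul_left _
  · intro g
    rw [pow_zero]
    exact pm_mul_PP_one _
  · rw [pow_zero]
    exact PP_one_ne
  · intro g
    have : Aff.map q (Aff.sg Polynomial.X g) = Aff.sg x (Aff.map q g) :=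
      Aff.ext (by ext i; simp [Aff.map, Aff.sg, x]) rfl
    change pm (Aff.act (Aff.map q (Aff.sg Polynomial.X g))) * JJ x =
      JJ x * pm (Aff.act (Aff.map q g))
    rw [this, JJ_inter]
  · intro j
    rw [pow_succ, PP_mul_JJ]
  · intro w hw
    change (JJ x)ᴴ * pm (Aff.act (Aff.map q (tc w))) * JJ x = 0
    rw [tc, hmap, pm_act_tr]
    refine JJ_orth x _ fun v hv => hw ?_
    funext i
    have h1 : x * v i = q (Polynomial.C (w i)) := congrFun hv i
    obtain ⟨p, hp⟩ := hq (v i)
    rw [← hp, ← map_mul] at h1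
    have h2 : f ∣ Polynomial.X * p - Polynomial.C (w i) := AdjoinRoot.mk_eq_mk.1 h1
    have h3 : (Polynomial.X : R) ∣ Polynomial.X * p - Polynomial.C (w i) :=
      (dvd_pow_self _ (by omega)).trans h2
    rw [Polynomial.X_dvd_iff] at h3
    simpa using h3
  · intro j hj
    refine JJ_mul_of x _ fun m hm => ?_
    have hm' : x • m = 0 := by simpa [kerS] using hm
    have : ∀ i, ∃ s : S, x ^ j * s = m i := by
      intro i
      obtain ⟨p, hp⟩ := hq (m i)
      have h1 : x * m i = 0 := congrFun hm' i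
      rw [← hp, ← map_mul] at h1
      have h2 : f ∣ Polynomial.X * p := AdjoinRoot.mk_eq_zero.1 h1
      have h3 : (Polynomial.X : R) * Polynomial.X ^ j ∣ Polynomial.X * p := by
        rw [← pow_succ']
        exact (pow_dvd_pow _ hj).trans h2
      obtain ⟨r, hr⟩ := (mul_dvd_mul_iff_left Polynomial.X_ne_zero).1 h3
      exact ⟨q r, by rw [← hp, hr, map_mul, map_pow]⟩
    choose s hs using this
    have e : m = x ^ j • s := funext fun i => (hs i).symm
    rw [e, TT_mul_PP]

end Crest.Agent.R073
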