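import Crest.Agent.R073.Defs

/-! Row 73: the spectral gap. -/

set_option autoImplicit false

namespace Crest.Agent.R073

section av

variable {Λ D : Type} [Group Λ] [CStarAlgebra D] (ρ : Λ →* D)

/-- average over the cyclic group generated by `a` -/
noncomputable def av (a : Λ) : D := ∑ j : Fin 101, (1 / 101 : ℂ) • ρ (a ^ (j : ℕ))

variable {ρ}

theorem pow_absorb_left {a : Λ} {x : D} (h : ρ a * x = x) (j : ℕ) : ρ (a ^ j) * x = x := by
  induction j with
  | zero => simp
  | succ j ih => rw [pow_succ, map_mul, mul_assoc, h, ih]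

theorem pow_absorb_right {a : Λ} {x : D} (h : x * ρ a = x) (j : ℕ) : x * ρ (a ^ j) = x := by
  induction j with
  | zero => simp
  | succ j ih => rw [pow_succ, map_mul, ← mul_assoc, ih, h]

theorem sum_const_101 (x : D) : ∑ _j : Fin 101, (1 / 101 : ℂ) • x = x := by
  simp only [Finset.sum_const, Finset.card_univ, Fintype.card_fin, ← Nat.cast_smul_eq_nsmul ℂ,
    smul_smul]
  norm_num

theorem av_absorb_left {a : Λ} {x : D} (h : ρ a * x = x) : av ρ a * x = x := by
  simp only [av, Finset.sum_mul, smul_mul_assoc, pow_absorb_left h, sum_const_101]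

theorem av_absorb_right {a : Λ} {x : D} (h : x * ρ a = x) : x * av ρ a = x := by
  simp only [av, Finset.mul_sum, mul_smul_comm, pow_absorb_right h, sum_const_101]

theorem av_comm {a : Λ} {e : D} (h : Commute e (ρ a)) : Commute e (av ρ a) :=
  Commute.sum_right _ _ _ fun j _ => by
    rw [map_pow]
    exact (h.pow_right _).smul_right _

theorem mul_av {a : Λ} (ha : a ^ 101 = 1) : ρ a * av ρ a = av ρ a := by
  simp only [av, Finset.mul_sum, mul_smul_comm, ← map_mul, ← pow_succ']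
  rw [Fin.sum_univ_eq_sum_range (fun j => (1 / 101 : ℂ) • ρ (a ^ (j + 1))),
    Fin.sum_univ_eq_sum_range (fun j => (1 / 101 : ℂ) • ρ (a ^ j)), Finset.sum_range_succ,
    Finset.sum_range_succ' (fun j => (1 / 101 : ℂ) • ρ (a ^ j)), ha, pow_zero]

theorem av_mul {a : Λ} (ha : a ^ 101 = 1) : av ρ a * ρ a = av ρ a := by
  rw [(av_comm (Commute.refl (ρ a))).eq.symm, mul_av ha]

theorem av_proj (hρ : ∀ g, star (ρ g) = ρ g⁻¹) {a : Λ} (ha : a ^ 101 = 1) :
    IsStarProjection (av ρ a) := by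
  refine ⟨av_absorb_left (mul_av ha), ?_⟩
  have h1 : star (av ρ a) = av ρ a⁻¹ := by
    have : star (1 / 101 : ℂ) = 1 / 101 := by
      rw [star_div₀, star_one, star_ofNat]
    simp only [av, star_sum, star_smul, hρ, this, inv_pow]
  have ha' : a⁻¹ ^ 101 = 1 := by rw [inv_pow, ha, inv_one]
  have h2 : ρ a * av ρ a⁻¹ = av ρ a⁻¹ := by
    conv_lhs => rw [← mul_av ha', ← mul_assoc, ← map_mul, mul_inv_cancel, map_one, one_mul]
  have h3 : av ρ a * ρ a⁻¹ = av ρ a := by
    conv_lhs => rw [← av_mul ha, mul_assoc, ← map_mul, mul_inv_cancel, map_one, mul_one]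
  rw [IsSelfAdjoint, h1, ← av_absorb_left h2, av_absorb_right h3]

end av

section pair

variable {D : Type} [CStarAlgebra D] [PartialOrder D] [StarOrderedRing D]

theorem pair_abs {P P' C : D} (hP : IsStarProjection P) (hP' : IsStarProjection P')
    (hC : IsStarProjection C) (h1 : Commute C P) (h2 : Commute C P') (h3 : C * P * P' = C * P' * P)
    (h4 : (1 - C) * (P * P' * P) = (1 / 101 : ℂ) • ((1 - C) * P)) :
    0 ≤ (1 - P) * (1 - P') + (1 - P') * (1 - P) + (1 / 4 : ℝ) • ((1 - P) + (1 - P')) := by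
  have hN := hC.one_sub
  set N := 1 - C with hNdef
  have n1 : Commute N P := (Commute.one_left P).sub_left h1
  have n2 : Commute N P' := (Commute.one_left P').sub_left h2
  have hP1 := hN.mul hP n1
  have hP1' := hN.mul hP' n2
  have eN : N * N = N := hN.isIdempotentElem
  have eP : P * P = P := hP.isIdempotentElem
  have eP' : P' * P' = P' := hP'.isIdempotentElem
  have eC : C * C = C := hC.isIdempotentElem
  have hnorm : ‖N * P' * (N * P)‖ ≤ 1 / 10 := by
    have e : star (N * P' * (N * P)) * (N * P' * (N * P)) = (1 / 101 : ℂ) • (N * P) := by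
      rw [star_mul, hP1.isSelfAdjoint.star_eq, hP1'.isSelfAdjoint.star_eq, mul_assoc,
        ← mul_assoc (N * P'), hP1'.isIdempotentElem, ← h4]
      calc N * P * (N * P' * (N * P)) = N * (P * N) * (P' * N) * P := by simp only [mul_assoc]
        _ = (N * N) * (P * N) * P' * P := by
          rw [← n2.eq, ← n1.eq]; simp only [← mul_assoc]; rw [mul_assoc _ P N, ← n1.eq]
          simp only [mul_assoc]
        _ = (N * N * N) * (P * P' * P) := by rw [← n1.eq]; simp only [mul_assoc]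
        _ = _ := by rw [eN, eN]
    have := CStarRing.norm_star_mul_self (x := N * P' * (N * P))
    rw [e, norm_smul] at this
    have h5 := hP1.norm_le
    have h6 : ‖(1 / 101 : ℂ)‖ = 1 / 101 := by simp
    rw [h6] at this
    nlinarith [norm_nonneg (N * P' * (N * P)), norm_nonneg (N * P)]
  have hnorm' : ‖N * P * (N * P')‖ ≤ 1 / 10 := by
    rw [← norm_star, star_mul, hP1.isSelfAdjoint.star_eq, hP1'.isSelfAdjoint.star_eq]
    exact hnorm
  set Rr := N * P + N * P' with hR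
  have hRsa : IsSelfAdjoint Rr := hP1.isSelfAdjoint.add hP1'.isSelfAdjoint
  have hRn : ‖Rr‖ ≤ 5 / 4 := by
    have e : Rr * Rr = Rr + (N * P * (N * P') + N * P' * (N * P)) := by
      rw [hR, add_mul, mul_add, mul_add, hP1.isIdempotentElem, hP1'.isIdempotentElem]
      abel
    have := CStarRing.norm_star_mul_self (x := Rr)
    rw [hRsa.star_eq, e] at this
    have h5 := norm_add_le Rr (N * P * (N * P') + N * P' * (N * P))
    have h6 := norm_add_le (N * P * (N * P')) (N * P' * (N * P))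
    nlinarith [norm_nonneg Rr]
  have hle : ∀ r : ℝ, 5 / 4 ≤ r → 0 ≤ r • (1 : D) - Rr := fun r hr => by
    rw [sub_nonneg, ← Algebra.algebraMap_eq_smul_one]
    exact (CStarAlgebra.norm_le_iff_le_algebraMap Rr (by linarith)
      (add_nonneg hP1.nonneg hP1'.nonneg)).1 (hRn.trans hr)
  have cNR : Commute N Rr := ((Commute.refl N).mul_right n1).add_right ((Commute.refl N).mul_right n2)
  have cN : ∀ r : ℝ, Commute N (r • (1 : D) - Rr) := fun r =>
    ((Commute.one_right N).smul_right r).sub_right cNR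
  have cRR : Commute ((2 : ℝ) • (1 : D) - Rr) ((5 / 4 : ℝ) • (1 : D) - Rr) :=
    (((Commute.one_right _).smul_right _).sub_right
      ((((Commute.one_left _).smul_left _)).sub_left (Commute.refl _)))
  have p1 : 0 ≤ N * (((2 : ℝ) • (1 : D) - Rr) * ((5 / 4 : ℝ) • (1 : D) - Rr)) :=
    Commute.mul_nonneg hN.nonneg (Commute.mul_nonneg (hle 2 (by norm_num)) (hle _ le_rfl) cRR)
      ((cN _).mul_right (cN _))
  have cQ : Commute C (1 - P) := (Commute.one_right C).sub_right h1
  have cQ' : Commute C (1 - P') := (Commute.one_right C).sub_right h2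
  have q1 := (hC.mul hP.one_sub cQ).nonneg
  have q2 := (hC.mul hP'.one_sub cQ').nonneg
  have e1 : C * (1 - P) * (C * (1 - P')) = C * ((1 - P) * (1 - P')) := by
    rw [mul_assoc, ← mul_assoc (1 - P), ← cQ.eq, ← mul_assoc, ← mul_assoc, eC, mul_assoc]
  have e2 : C * (1 - P') * (C * (1 - P)) = C * ((1 - P') * (1 - P)) := by
    rw [mul_assoc, ← mul_assoc (1 - P'), ← cQ'.eq, ← mul_assoc, ← mul_assoc, eC, mul_assoc]
  have cqq : Commute (C * (1 - P)) (C * (1 - P')) := by
    rw [Commute, SemiconjBy, e1, e2]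
    simp only [mul_sub, sub_mul, mul_one, one_mul, ← mul_assoc, h3]
    abel
  have q3 := Commute.mul_nonneg q1 q2 cqq
  have q4 := Commute.mul_nonneg q2 q1 cqq.symm
  rw [e1] at q3
  rw [e2] at q4
  have eR : N * (((2 : ℝ) • (1 : D) - Rr) * ((5 / 4 : ℝ) • (1 : D) - Rr)) =
      N * ((1 - P) * (1 - P') + (1 - P') * (1 - P) + (1 / 4 : ℝ) • ((1 - P) + (1 - P'))) := by
    have a1 : N * Rr = N * (P + P') := by rw [hR, ← mul_add, ← mul_assoc, eN]
    have a2 : N * (Rr * Rr) = N * (P + P' + P * P' + P' * P) := by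
      rw [← mul_assoc, a1, hR, ← mul_add, mul_assoc, ← mul_assoc (P + P'),
        ← (n1.add_right n2).eq, ← mul_assoc, ← mul_assoc, eN, mul_assoc]
      congr 1
      rw [add_mul, mul_add, mul_add, eP, eP']
      abel
    simp only [sub_mul, mul_sub, smul_mul_assoc, mul_smul_comm, mul_one, one_mul, a1, a2, mul_add,
      smul_add, smul_sub]
    module
  have : (1 - P) * (1 - P') + (1 - P') * (1 - P) + (1 / 4 : ℝ) • ((1 - P) + (1 - P')) =
      N * (((2 : ℝ) • (1 : D) - Rr) * ((5 / 4 : ℝ) • (1 : D) - Rr)) +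
      (C * ((1 - P) * (1 - P')) + C * ((1 - P') * (1 - P)) +
        (1 / 4 : ℝ) • (C * (1 - P) + C * (1 - P'))) := by
    rw [eR, ← mul_add, ← mul_add, ← mul_smul_comm, ← mul_add, ← add_mul, hNdef, sub_add_cancel,
      one_mul]
  rw [this]
  exact add_nonneg p1 (add_nonneg (add_nonneg q3 q4) (smul_nonneg (by norm_num) (add_nonneg q1 q2)))

variable {Λ : Type} [Group Λ] {ρ : Λ →* D}

theorem pair_heis (hρ : ∀ g, star (ρ g) = ρ g⁻¹) {a b : Λ} (ha : a ^ 101 = 1) (hb : b ^ 101 = 1)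
    (h : Heis a b) :
    0 ≤ (1 - av ρ a) * (1 - av ρ b) + (1 - av ρ b) * (1 - av ρ a) +
      (1 / 4 : ℝ) • ((1 - av ρ a) + (1 - av ρ b)) := by
  obtain ⟨hca, hcb⟩ := h
  set c := a * b * a⁻¹ * b⁻¹ with hc
  have hab : a * b = c * b * a := by rw [hc]; group
  have hpow : ∀ j : ℕ, a * b ^ j = c ^ j * b ^ j * a := fun j => by
    induction j with
    | zero => simp
    | succ j ih =>
      rw [pow_succ, ← mul_assoc, ih, mul_assoc, hab, pow_succ]
      simp only [mul_assoc]
      rw [← mul_assoc (b ^ j) c, ← (hcb.pow_right j).eq, mul_assoc]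
  have hc1 : c ^ 101 = 1 := by
    have := hpow 101
    rw [hb, mul_one, mul_one] at this
    exact mul_right_cancel (this.symm.trans (one_mul a).symm)
  have hCa : Commute (av ρ c) (ρ a) := (av_comm (hca.symm.map ρ)).symm
  have hCb : Commute (av ρ c) (ρ b) := (av_comm (hcb.symm.map ρ)).symm
  have hcP : Commute (ρ c) (av ρ a) := av_comm (hca.map ρ)
  refine pair_abs (av_proj hρ ha) (av_proj hρ hb) (av_proj hρ hc1) (av_comm hCa) (av_comm hCb) ?_ ?_
  · have h1 : ∀ j : ℕ, Commute (ρ a) (av ρ c * ρ (b ^ j)) := fun j => by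
      rw [Commute, SemiconjBy, ← mul_assoc, ← hCa.eq, mul_assoc, ← map_mul, hpow, map_mul, map_mul,
        ← mul_assoc, ← mul_assoc, pow_absorb_right (av_mul hc1)]
    have h2 : Commute (av ρ c * av ρ b) (ρ a) := by
      rw [av.eq_def ρ b, Finset.mul_sum]
      refine Commute.sum_left _ _ _ fun j _ => ?_
      rw [mul_smul_comm]
      exact (h1 j).symm.smul_left _
    rw [(av_comm h2).eq, ← mul_assoc, (av_comm hCa).eq]
  · have h1 : ∀ j : Fin 101, j ≠ 0 → (1 - av ρ c) * (av ρ a * ρ (b ^ (j : ℕ)) * av ρ a) = 0 := by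
      intro j hj
      have e1 : ρ (c ^ (j : ℕ)) * (av ρ a * ρ (b ^ (j : ℕ)) * av ρ a) =
          av ρ a * ρ (b ^ (j : ℕ)) * av ρ a := by
        calc ρ (c ^ (j : ℕ)) * (av ρ a * ρ (b ^ (j : ℕ)) * av ρ a)
            = av ρ a * (ρ (c ^ (j : ℕ)) * ρ (b ^ (j : ℕ))) * (ρ a * av ρ a) := by
              rw [mul_av ha, map_pow ρ c, ← mul_assoc, ← mul_assoc, (hcP.pow_left _).eq]
              simp only [mul_assoc]
          _ = av ρ a * ρ (a * b ^ (j : ℕ)) * av ρ a := by
              rw [hpow, map_mul, map_mul]; simp only [mul_assoc]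
          _ = _ := by rw [map_mul, ← mul_assoc, av_mul ha]
      have hcop : Nat.Coprime (j : ℕ) (orderOf c) := by
        refine Nat.Coprime.coprime_dvd_right (orderOf_dvd_of_pow_eq_one hc1) ?_
        exact (Nat.coprime_of_lt_prime (fun h0 => hj (Fin.ext h0)) j.2 fact101.out).symm
      obtain ⟨l, hl⟩ := exists_pow_eq_self_of_coprime hcop
      have e2 := pow_absorb_left e1 l
      rw [hl] at e2
      rw [sub_mul, one_mul, av_absorb_left e2, sub_self]
    rw [av.eq_def ρ b, Finset.mul_sum, Finset.sum_mul, Finset.mul_sum, Finset.sum_eq_single 0]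
    · simp only [Fin.val_zero, pow_zero, map_one, mul_smul_comm, smul_mul_assoc, mul_one]
      rw [(av_proj hρ ha).isIdempotentElem]
    · intro j _ hj
      rw [mul_smul_comm, smul_mul_assoc, mul_smul_comm, h1 j hj, smul_zero]
    · simp

theorem pair_comm (hρ : ∀ g, star (ρ g) = ρ g⁻¹) {a b : Λ} (ha : a ^ 101 = 1) (hb : b ^ 101 = 1)
    (h : Commute a b) : 0 ≤ (1 - av ρ a) * (1 - av ρ b) + (1 - av ρ b) * (1 - av ρ a) := by
  have h1 : Commute (av ρ a) (av ρ b) := av_comm (av_comm (h.symm.map ρ)).symm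
  have h2 : Commute (1 - av ρ a) (1 - av ρ b) :=
    (Commute.one_left _).sub_left ((Commute.one_right _).sub_right h1)
  exact add_nonneg (Commute.mul_nonneg (av_proj hρ ha).one_sub.nonneg
    (av_proj hρ hb).one_sub.nonneg h2) (Commute.mul_nonneg (av_proj hρ hb).one_sub.nonneg
    (av_proj hρ ha).one_sub.nonneg h2.symm)

end pair

theorem gap {Λ D : Type} [Group Λ] [CStarAlgebra D] (ρ : Λ →* D) (hρ : ∀ g, star (ρ g) = ρ g⁻¹)
    {y : Fin 4 → Λ} (hy : Kaz y) :
    ∃ q : D, IsSelfAdjoint q ∧ q * q = q ∧ (∀ i, ρ (y i) * q = q) ∧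
      ‖avS ρ y * (1 - q)‖ ≤ 15 / 4 ∧ ∀ e : D, (∀ i, Commute e (ρ (y i))) → Commute e q := by
  let _ : PartialOrder D := CStarAlgebra.spectralOrder D
  have : StarOrderedRing D := CStarAlgebra.spectralOrderedRing D
  let Q : Fin 4 → D := fun i => 1 - av ρ (y i)
  have hP : ∀ i, IsStarProjection (av ρ (y i)) := fun i => av_proj hρ (hy.pow i)
  have hQ : ∀ i, IsStarProjection (Q i) := fun i => (hP i).one_sub
  set Δ : D := ∑ i, Q i with hΔ
  have hΔ0 : 0 ≤ Δ := Finset.sum_nonneg fun i _ => (hQ i).nonneg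
  have hsa : IsSelfAdjoint Δ := hΔ0.isSelfAdjoint
  have hS : avS ρ y = (4 : ℝ) • (1 : D) - Δ := by
    change ∑ i, av ρ (y i) = _
    simp only [hΔ, Q, Fin.sum_univ_four]
    module
  have hS0 : 0 ≤ (4 : ℝ) • (1 : D) - Δ := by
    rw [← hS]
    exact Finset.sum_nonneg fun i _ => (hP i).nonneg
  have hgap : 0 ≤ Δ * Δ - (1 / 4 : ℝ) • Δ := by
    have e : Δ * Δ - (1 / 4 : ℝ) • Δ =
        (Q 0 * Q 1 + Q 1 * Q 0 + (1 / 4 : ℝ) • (Q 0 + Q 1)) +
        (Q 1 * Q 2 + Q 2 * Q 1 + (1 / 4 : ℝ) • (Q 1 + Q 2)) +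
        (Q 2 * Q 0 + Q 0 * Q 2 + (1 / 4 : ℝ) • (Q 2 + Q 0)) +
        (Q 1 * Q 3 + Q 3 * Q 1 + (1 / 4 : ℝ) • (Q 1 + Q 3)) +
        (Q 0 * Q 3 + Q 3 * Q 0) + (Q 2 * Q 3 + Q 3 * Q 2) +
        (1 / 4 : ℝ) • (Q 0 + Q 2 + Q 3 + Q 3) := by
      simp only [hΔ, Fin.sum_univ_four, add_mul, mul_add, (hQ _).isIdempotentElem.eq]
      module
    rw [e]
    refine add_nonneg (add_nonneg (add_nonneg (add_nonneg (add_nonneg (add_nonneg
      (pair_heis hρ (hy.pow 0) (hy.pow 1) hy.h01) (pair_heis hρ (hy.pow 1) (hy.pow 2) hy.h12))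
      (pair_heis hρ (hy.pow 2) (hy.pow 0) hy.h20)) (pair_heis hρ (hy.pow 1) (hy.pow 3) hy.h13))
      (pair_comm hρ (hy.pow 0) (hy.pow 3) hy.c03)) (pair_comm hρ (hy.pow 2) (hy.pow 3) hy.c23))
      (smul_nonneg (by norm_num) ?_)
    exact add_nonneg (add_nonneg (add_nonneg (hQ 0).nonneg (hQ 2).nonneg) (hQ 3).nonneg)
      (hQ 3).nonneg
  have hspec : ∀ s ∈ spectrum ℝ Δ, s = 0 ∨ (1 / 4 ≤ s ∧ s ≤ 4) := fun s hs => by
    have h1 : 0 ≤ s := spectrum_nonneg_of_nonneg hΔ0 hs
    have h2 : cfc (fun s : ℝ => s * s - (1 / 4 : ℝ) • s) Δ = Δ * Δ - (1 / 4 : ℝ) • Δ := by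
      rw [cfc_sub .., cfc_mul .., cfc_smul .., cfc_id' ..]
    have h3 : cfc (fun s : ℝ => (4 : ℝ) - s) Δ = (4 : ℝ) • (1 : D) - Δ := by
      rw [cfc_sub .., cfc_const .., cfc_id' .., Algebra.algebraMap_eq_smul_one]
    rw [← h2, cfc_nonneg_iff ..] at hgap
    rw [← h3, cfc_nonneg_iff ..] at hS0
    have h4 := hgap s hs
    have h5 := hS0 s hs
    rcases h1.eq_or_lt with h | h
    · exact Or.inl h.symm
    · refine Or.inr ⟨?_, by linarith⟩
      rw [smul_eq_mul] at h4
      nlinarith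
  let f : ℝ → ℝ := fun s => max 0 (1 - 4 * s)
  have hf : Continuous f := by fun_prop
  have hf0 : f 0 = 1 := by simp [f]
  have hf1 : ∀ s, 1 / 4 ≤ s → f s = 0 := fun s hs => max_eq_left (by linarith)
  have hΔq : Δ * cfc f Δ = 0 := by
    have : cfc (fun s => s * f s) Δ = Δ * cfc f Δ := by rw [cfc_mul .., cfc_id' ..]
    rw [← this, ← cfc_zero ℝ Δ]
    refine cfc_congr fun s hs => ?_
    rcases hspec s hs with rfl | h
    · simp
    · simp [hf1 s h.1]
  have hqsa : IsSelfAdjoint (cfc f Δ) := cfc_predicate f Δ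
  refine ⟨cfc f Δ, hqsa, ?_, fun i => ?_, ?_, fun e he => ?_⟩
  · rw [← cfc_mul ..]
    refine cfc_congr fun s hs => ?_
    rcases hspec s hs with rfl | h
    · simp [hf0]
    · simp [hf1 s h.1]
  · have h1 : ∑ i, star (Q i * cfc f Δ) * (Q i * cfc f Δ) = 0 := by
      have : ∀ i, star (Q i * cfc f Δ) * (Q i * cfc f Δ) = cfc f Δ * (Q i * cfc f Δ) := fun i => by
        rw [star_mul, hqsa.star_eq, (hQ i).isSelfAdjoint.star_eq, mul_assoc, ← mul_assoc (Q i),
          (hQ i).isIdempotentElem.eq]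
      simp only [this, ← Finset.mul_sum, ← Finset.sum_mul]
      rw [← hΔ, hΔq, mul_zero]
    rw [Finset.sum_eq_zero_iff_of_nonneg fun i _ => star_mul_self_nonneg _] at h1
    have h2 := (CStarRing.star_mul_self_eq_zero_iff _).1 (h1 i (Finset.mem_univ i))
    simp only [Q, sub_mul, one_mul, sub_eq_zero] at h2
    rw [h2, ← mul_assoc, mul_av (hy.pow i)]
  · have : cfc (fun s : ℝ => ((4 : ℝ) - s) * (1 - f s)) Δ = avS ρ y * (1 - cfc f Δ) := by
      rw [cfc_mul .., cfc_sub .., cfc_sub .., cfc_const .., cfc_id' .., cfc_const .., map_one,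
        Algebra.algebraMap_eq_smul_one, hS]
    rw [← this]
    refine norm_cfc_le (by norm_num) fun s hs => ?_
    rcases hspec s hs with rfl | h
    · simp [hf0]
      norm_num
    · rw [hf1 s h.1, sub_zero, mul_one, Real.norm_eq_abs, abs_le]
      constructor <;> linarith [h.1, h.2]
  · refine (Commute.cfc_real ?_ f).symm
    exact Commute.sum_left _ _ _ fun i _ => (Commute.one_left e).sub_left (av_comm (he i)).symm

end Crest.Agent.R073
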