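import Crest.Agent.R073.Group
import Crest.Agent.R073.Gap

/-! Row 73: transfer of invariant elements from one level to the next. -/

set_option autoImplicit false

open scoped Matrix

namespace Crest.Agent.R073

theorem yy_three : yy 3 = tc (Pi.single 2 1) := by
  refine Aff.ext ?_ rfl
  ext1 i
  simp only [yy, tc, Aff.tr]
  fin_cases i <;> simp

theorem tc_zero : tc 0 = 1 := Aff.ext (by ext1 i; simp [tc, Aff.tr]) rfl

theorem tr_split (m : Fin 3 → R) : Aff.tr m = tc (fun i => (m i).coeff 0) *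
    Aff.sg Polynomial.X (Aff.tr fun i => (m i).divX) := by
  refine Aff.ext ?_ (by simp [Aff.tr, tc, Aff.sg])
  ext1 i
  simp only [Aff.tr, tc, Aff.sg, Aff.mul_m, MonoidHom.coe_mk, OneHom.coe_mk, Units.val_one,
    Matrix.one_mulVec, Pi.add_apply, Pi.smul_apply, smul_eq_mul]
  rw [add_comm, Polynomial.X_mul_divX_add]

theorem mul_tc (g : Aff R) (w : Fin 3 → F) :
    g * tc w = Aff.tr (g * tc w).m * Aff.lin g.γ :=
  Aff.ext (by simp [Aff.tr, Aff.lin]) (by simp [Aff.tr, Aff.lin, tc])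

theorem coeff_mul_tc (g : Aff R) (w : Fin 3 → F) :
    (fun i => ((g * tc w).m i).coeff 0) = Aff.act (Aff.map Polynomial.constantCoeff g) w := by
  ext1 i
  simp [Aff.act_apply, Aff.map, tc, Aff.tr, Matrix.mulVec, dotProduct]

/-- the abstract data living in the ultraproduct -/
structure Setup {G D : Type} [Group G] [CStarAlgebra D] (ι : Aff R →* G) (t : G) (Θ : G →* D)
    (α : Aff R →* D) (J : D) : Prop where
  conj : ∀ g, t * ι g * t⁻¹ = ι (Aff.sg Polynomial.X g)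
  Θ_star : ∀ g, star (Θ g) = Θ g⁻¹
  α_star : ∀ g, star (α g) = α g⁻¹
  cα : ∀ g h, Commute (Θ g) (α h)
  cJ : ∀ g, Commute (Θ g) J
  cJs : ∀ g, Commute (Θ g) (star J)
  inter : ∀ g, α (Aff.sg Polynomial.X g) * J = J * α g
  orth : ∀ w : Fin 3 → F, w ≠ 0 → star J * α (tc w) * J = 0

namespace Setup

variable {G D : Type} [Group G] [CStarAlgebra D] {ι : Aff R →* G} {t : G} {Θ : G →* D}
  {α : Aff R →* D} {J : D} (h : Setup ι t Θ α J)

/-- the diagonal representation -/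
noncomputable def ρ : Aff R →* D where
  toFun g := Θ (ι g) * α g
  map_one' := by simp
  map_mul' g g' := by
    rw [map_mul, map_mul, map_mul, mul_assoc, mul_assoc, ← mul_assoc (Θ (ι g')),
      (h.cα (ι g') g).eq, mul_assoc]

theorem ρ_apply (g : Aff R) : h.ρ g = Θ (ι g) * α g := rfl

theorem ρ_star (g : Aff R) : star (h.ρ g) = h.ρ g⁻¹ := by
  rw [ρ_apply, ρ_apply, star_mul, h.Θ_star, h.α_star, map_inv ι, (h.cα _ _).eq]

/-- average over constant translations -/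
noncomputable def PW : D := ∑ w : Fin 3 → F, ((Fintype.card (Fin 3 → F) : ℂ))⁻¹ • h.ρ (tc w)

theorem transfer_inv {ξ : D} (hξ : ∀ i, h.ρ (yy i) * ξ = ξ) (i : Fin 4) :
    h.ρ (yy i) * (h.PW * (Θ t * J * ξ)) = h.PW * (Θ t * J * ξ) := by
  let H : Subgroup (Aff R) :=
    { carrier := {g | h.ρ g * ξ = ξ}
      mul_mem' := fun {a b} ha hb => by
        change h.ρ (a * b) * ξ = ξ
        rw [map_mul, mul_assoc, hb, ha]
      one_mem' := by
        change h.ρ 1 * ξ = ξ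
        rw [map_one, one_mul]
      inv_mem' := fun {a} ha => by
        change h.ρ a⁻¹ * ξ = ξ
        conv_lhs => rw [← ha]
        rw [← mul_assoc, ← map_mul, inv_mul_cancel, map_one, one_mul] }
  set ζ := Θ t * J * ξ
  have hζ : ∀ g ∈ H, h.ρ (Aff.sg Polynomial.X g) * ζ = ζ := fun g hg => by
    have e1 : Θ (ι (Aff.sg Polynomial.X g)) * Θ t = Θ t * Θ (ι g) := by
      rw [← h.conj, ← map_mul, ← map_mul, inv_mul_cancel_right]
    calc h.ρ (Aff.sg Polynomial.X g) * ζ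
        = Θ (ι (Aff.sg Polynomial.X g)) * (α (Aff.sg Polynomial.X g) * Θ t) * J * ξ := by
          simp only [ρ_apply, ζ, mul_assoc]
      _ = (Θ (ι (Aff.sg Polynomial.X g)) * Θ t) * (α (Aff.sg Polynomial.X g) * J) * ξ := by
          rw [← (h.cα t _).eq]; simp only [mul_assoc]
      _ = Θ t * (Θ (ι g) * J) * α g * ξ := by rw [e1, h.inter]; simp only [mul_assoc]
      _ = Θ t * J * (h.ρ g * ξ) := by rw [(h.cJ _).eq]; simp only [ρ_apply, mul_assoc]
      _ = ζ := by rw [hg]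
  have htr : ∀ m, h.ρ (Aff.tr m) * ζ = h.ρ (tc fun i => (m i).coeff 0) * ζ := fun m => by
    conv_lhs => rw [tr_split, map_mul, mul_assoc, hζ _ (tr_mem_of_yy H hξ _)]
  have hlin : h.ρ (Aff.lin (yy i).γ) * ζ = ζ := by
    have e : ∀ γ, Aff.sg (Polynomial.X : R) (Aff.lin γ) = Aff.lin γ := fun γ =>
      Aff.ext (by simp [Aff.sg, Aff.lin]) rfl
    fin_cases i
    · exact (e _) ▸ hζ _ (hξ 0)
    · exact (e _) ▸ hζ _ (hξ 1)
    · exact (e _) ▸ hζ _ (hξ 2)
    · exact (e _) ▸ hζ _ H.one_mem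
  simp only [PW, Finset.sum_mul, Finset.mul_sum, smul_mul_assoc, mul_smul_comm]
  rw [← Equiv.sum_comp (Aff.act (Aff.map Polynomial.constantCoeff (yy i)))
    fun w => ((Fintype.card (Fin 3 → F) : ℂ))⁻¹ • (h.ρ (tc w) * ζ)]
  refine Finset.sum_congr rfl fun w _ => ?_
  rw [← mul_assoc, ← map_mul, mul_tc, map_mul, mul_assoc, hlin, htr, coeff_mul_tc]

theorem transfer_back (g : G) (ξ : D) :
    star J * Θ t⁻¹ * (Θ g * (h.PW * (Θ t * J * ξ))) =
      ((Fintype.card (Fin 3 → F) : ℂ))⁻¹ • (Θ (t⁻¹ * g * t) * (star J * J * ξ)) := by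
  simp only [PW, Finset.sum_mul, Finset.mul_sum, smul_mul_assoc, mul_smul_comm]
  have key : ∀ w, star J * Θ t⁻¹ * (Θ g * (h.ρ (tc w) * (Θ t * J * ξ))) =
      Θ (t⁻¹ * g * ι (tc w) * t) * (star J * α (tc w) * J * ξ) := fun w => by
    calc star J * Θ t⁻¹ * (Θ g * (h.ρ (tc w) * (Θ t * J * ξ)))
        = star J * (Θ t⁻¹ * Θ g * Θ (ι (tc w))) * (α (tc w) * Θ t) * J * ξ := by
          simp only [ρ_apply, mul_assoc]
      _ = (star J * (Θ t⁻¹ * Θ g * Θ (ι (tc w)) * Θ t)) * α (tc w) * J * ξ := by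
          rw [← (h.cα t _).eq]; simp only [mul_assoc]
      _ = _ := by
          rw [← map_mul, ← map_mul, ← map_mul, ← (h.cJs _).eq]; simp only [mul_assoc]
  simp only [key]
  rw [Finset.sum_eq_single 0]
  · simp [tc_zero]
  · intro w _ hw
    rw [h.orth w hw, zero_mul, mul_zero, smul_zero]
  · simp

theorem PW_comm {e : D} (he : ∀ g, Commute (h.ρ g) e) : Commute h.PW e :=
  Commute.sum_left _ _ _ fun _ _ => (he _).smul_left _

end Setup

theorem card_inv_ne : ((Fintype.card (Fin 3 → F) : ℂ))⁻¹ ≠ 0 :=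
  inv_ne_zero (Nat.cast_ne_zero.2 Fintype.card_ne_zero)

section

variable {Λ D : Type} [Group Λ] [CStarAlgebra D]

theorem avS_mul_of_inv (ρ : Λ →* D) (y : Fin 4 → Λ) {ξ : D} (hξ : ∀ i, ρ (y i) * ξ = ξ) :
    avS ρ y * ξ = (4 : ℂ) • ξ := by
  have h1 : ∀ i (j : ℕ), ρ (y i ^ j) * ξ = ξ := fun i j => by
    induction j with
    | zero => simp
    | succ j ih => rw [pow_succ, map_mul, mul_assoc, hξ, ih]
  simp only [avS, Finset.sum_mul, smul_mul_assoc, h1, Finset.sum_const, Finset.card_univ,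
    Fintype.card_fin, ← Nat.cast_smul_eq_nsmul ℂ, smul_smul]
  norm_num

theorem four_le_of_inv (ρ : Λ →* D) (y : Fin 4 → Λ) {ξ e : D} (hξ : ∀ i, ρ (y i) * ξ = ξ)
    (he : e * ξ = ξ) (h0 : ξ ≠ 0) : 4 ≤ ‖avS ρ y * e‖ := by
  have h1 : avS ρ y * e * ξ = (4 : ℂ) • ξ := by rw [mul_assoc, he, avS_mul_of_inv ρ y hξ]
  have h2 := norm_mul_le (avS ρ y * e) ξ
  rw [h1, norm_smul] at h2
  have h3 : 0 < ‖ξ‖ := norm_pos_iff.2 h0
  simp only [Complex.norm_ofNat] at h2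
  exact le_of_mul_le_mul_right h2 h3

theorem exists_inv_of_lt (ρ : Λ →* D) (hρ : ∀ g, star (ρ g) = ρ g⁻¹) {y : Fin 4 → Λ}
    (hy : Kaz y) {e : D} (he : ∀ i, Commute e (ρ (y i))) (he2 : e * e = e) (he1 : ‖e‖ ≤ 1)
    (hlt : 15 / 4 < ‖avS ρ y * e‖) :
    ∃ ξ : D, ξ ≠ 0 ∧ e * ξ = ξ ∧ ∀ i, ρ (y i) * ξ = ξ := by
  obtain ⟨q, -, -, h3, h4, h5⟩ := gap ρ hρ hy
  refine ⟨q * e, fun h0 => ?_, ?_, fun i => ?_⟩
  · have : avS ρ y * e = avS ρ y * (1 - q) * e := by
      rw [mul_assoc, sub_mul, one_mul, h0, sub_zero]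
    rw [this] at hlt
    have := norm_mul_le (avS ρ y * (1 - q)) e
    nlinarith [norm_nonneg e, norm_nonneg (avS ρ y * (1 - q))]
  · rw [← mul_assoc, (h5 e he).eq, mul_assoc, he2]
  · rw [← mul_assoc, h3]

end

end Crest.Agent.R073
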