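import Crest.Agent.R073.Defs

/-! Row 73: norm ultraproducts of C⋆-algebras (completion for a C⋆-seminorm). -/

set_option autoImplicit false

open Filter Topology

namespace Crest.Agent.R073

open UniformSpace in
/-- completion of a seminormed ⋆-algebra satisfying the C⋆-inequality -/
theorem ultra_completion (A : Type) [SeminormedRing A] [StarRing A] [NormedAlgebra ℂ A]
    [StarModule ℂ A] (hstar : ∀ a : A, ‖star a‖ ≤ ‖a‖)
    (hcstar : ∀ a : A, ‖a‖ * ‖a‖ ≤ ‖star a * a‖) :
    ∃ (C : Type) (_ : CStarAlgebra C) (ι : A →⋆ₐ[ℂ] C), ∀ a, ‖ι a‖ = ‖a‖ := by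
  have hu : UniformContinuous (star : A → A) :=
    (AddMonoidHomClass.lipschitz_of_bound (starAddEquiv : A ≃+ A) 1
      (by simpa using hstar)).uniformContinuous
  let st : Completion A → Completion A := Completion.map star
  have hst : ∀ a : A, st a = (star a : A) := fun a => Completion.map_coe hu a
  have hc : Continuous st := Completion.continuous_map
  let S : StarRing (Completion A) :=
    { star := st
      star_involutive := fun x => by
        induction x using Completion.induction_on with
        | hp => exact isClosed_eq (hc.comp hc) continuous_id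
        | ih a => rw [hst, hst, star_star]
      star_mul := fun x y => by
        change st (x * y) = st y * st x
        induction x, y using Completion.induction_on₂ with
        | hp => exact isClosed_eq (by fun_prop) (by fun_prop)
        | ih a b => rw [← Completion.coe_mul, hst, hst, hst, star_mul, Completion.coe_mul]
      star_add := fun x y => by
        change st (x + y) = st x + st y
        induction x, y using Completion.induction_on₂ with
        | hp => exact isClosed_eq (by fun_prop) (by fun_prop)
        | ih a b => rw [← Completion.coe_add, hst, hst, hst, star_add, Completion.coe_add] }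
  let N : NormedAlgebra ℂ (Completion A) := { norm_smul_le := norm_smul_le }
  have M : StarModule ℂ (Completion A) := ⟨fun c x => by
    change st (c • x) = star c • st x
    induction x using Completion.induction_on with
    | hp => exact isClosed_eq (by fun_prop) (by fun_prop)
    | ih a => rw [← Completion.coe_smul, hst, hst, star_smul, Completion.coe_smul]⟩
  have K : CStarRing (Completion A) := ⟨fun x => by
    change ‖x‖ * ‖x‖ ≤ ‖st x * x‖
    induction x using Completion.induction_on with
    | hp => exact isClosed_le (by fun_prop) (by fun_prop)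
    | ih a =>
      rw [hst, ← Completion.coe_mul, Completion.norm_coe, Completion.norm_coe]
      exact hcstar a⟩
  let : CStarAlgebra (Completion A) := { }
  exact ⟨Completion A, inferInstance,
    { toRingHom := Completion.coeRingHom
      commutes' := fun _ => rfl
      map_star' := fun a => (hst a).symm }, fun a => Completion.norm_coe a⟩

/-- completion of a ⋆-algebra for a C⋆-seminorm -/
theorem exists_cstar_completion (A : Type) [Ring A] [StarRing A] [Algebra ℂ A] [StarModule ℂ A]
    (p : A → ℝ) (h0 : p 0 = 0) (hadd : ∀ a b, p (a + b) ≤ p a + p b)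
    (hsmul : ∀ (c : ℂ) a, p (c • a) ≤ ‖c‖ * p a) (hmul : ∀ a b, p (a * b) ≤ p a * p b)
    (hstar : ∀ a, p (star a) ≤ p a) (hcstar : ∀ a, p a * p a ≤ p (star a * a)) :
    ∃ (C : Type) (_ : CStarAlgebra C) (ι : A →⋆ₐ[ℂ] C), ∀ a, ‖ι a‖ = p a := by
  have hneg : ∀ a, p (-a) ≤ p a := fun a => by simpa using hsmul (-1) a
  let q : RingSeminorm A :=
    { toFun := p
      map_zero' := h0
      add_le' := hadd
      neg' := fun a => le_antisymm (hneg a) (by simpa using hneg (-a))
      mul_le' := hmul }
  let : SeminormedRing A := q.toSeminormedRing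
  let : NormedAlgebra ℂ A := { norm_smul_le := hsmul }
  exact ultra_completion A hstar hcstar

theorem exists_ultra (ω : Ultrafilter ℕ) (D : ℕ → Type) [∀ n, CStarAlgebra (D n)] :
    ∃ (C : Type) (_ : CStarAlgebra C) (ι : BSeq D →⋆ₐ[ℂ] C),
      ∀ x : BSeq D, Tendsto (fun n => ‖x.1 n‖) (ω : Filter ℕ) (𝓝 ‖ι x‖) := by
  have hex : ∀ x : BSeq D, ∃ l : ℝ, Tendsto (fun n => ‖x.1 n‖) (ω : Filter ℕ) (𝓝 l) := by
    rintro ⟨x, C, hC⟩
    obtain ⟨l, -, hl⟩ := (isCompact_Icc (a := (0 : ℝ)) (b := C)).ultrafilter_le_nhds
      (ω.map fun n => ‖x n‖) (by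
        rw [Ultrafilter.coe_map, le_principal_iff, mem_map]
        exact Eventually.of_forall fun n => ⟨norm_nonneg _, hC n⟩)
    exact ⟨l, hl⟩
  choose p hp using hex
  obtain ⟨C, iC, ι, hι⟩ := exists_cstar_completion (BSeq D) p
    (tendsto_nhds_unique (hp 0) (by simp))
    (fun a b => le_of_tendsto_of_tendsto' (hp _) ((hp a).add (hp b)) fun n => norm_add_le _ _)
    (fun c a => le_of_tendsto_of_tendsto' (hp _) ((hp a).const_mul _) fun n =>
      norm_smul_le c (a.1 n))
    (fun a b => le_of_tendsto_of_tendsto' (hp _) ((hp a).mul (hp b)) fun n => norm_mul_le _ _)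
    (fun a => le_of_tendsto_of_tendsto' (hp _) (hp a) fun n => (norm_star _).le)
    (fun a => le_of_tendsto_of_tendsto' ((hp a).mul (hp a)) (hp _) fun n =>
      CStarRing.norm_mul_self_le _)
  exact ⟨C, iC, ι, fun x => by rw [hι]; exact hp x⟩

end Crest.Agent.R073
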