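import Crest.Agent.R073.Levels
import Crest.Agent.R073.Transfer
import Crest.Agent.R073.Model
import Crest.Agent.R073.Amb
import Crest.Agent.R073.Ultra

/-! Row 73: the main argument. -/

set_option autoImplicit false
set_option linter.unusedSectionVars false

open scoped Matrix
open Filter Topology Crest.AnalysisR.CStarEmbedding

namespace Crest.Agent.R073

section ultra

variable {A O : Type} [CStarAlgebra A] [CStarAlgebra O] [PartialOrder O] [StarOrderedRing O]
  {ω : Ultrafilter ℕ} {φ : ℕ → A → O} (hφ : IsUltrapowerEmbedding ω A O φ)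
  {Ω : ℕ → Type} [∀ n, Fintype (Ω n)] [∀ n, DecidableEq (Ω n)]
  {C : Type} [CStarAlgebra C] (U : BSeq (fun n => CStarMatrix (Ω n) (Ω n) O) →⋆ₐ[ℂ] C)
  (hU : ∀ x : BSeq (fun n => CStarMatrix (Ω n) (Ω n) O),
    Tendsto (fun n => ‖x.1 n‖) (ω : Filter ℕ) (𝓝 ‖U x‖))

theorem norm_tens_one_le {Ω : Type} [Fintype Ω] [DecidableEq Ω] (b : O) :
    ‖tens b (1 : Matrix Ω Ω ℂ)‖ ≤ ‖b‖ := norm_tens_le b (by simp)

variable (Ω) in
/-- the sequence attached to an element of `A` -/
noncomputable def sqA (b : A) : BSeq (fun n => CStarMatrix (Ω n) (Ω n) O) :=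
  ⟨fun n => tens (φ n b) 1, by
    obtain ⟨c, hc⟩ := hφ.1 b
    exact ⟨c, fun n => (norm_tens_one_le _).trans (hc n)⟩⟩

include hU in
theorem U_eq {x y : BSeq (fun n => CStarMatrix (Ω n) (Ω n) O)} {b b' : ℕ → O}
    (hx : ∀ n, x.1 n = tens (b n) 1) (hy : ∀ n, y.1 n = tens (b' n) 1)
    (h : Tendsto (fun n => ‖b n - b' n‖) (ω : Filter ℕ) (𝓝 0)) : U x = U y := by
  rw [← sub_eq_zero, ← map_sub, ← norm_le_zero_iff]
  refine le_of_tendsto_of_tendsto' (hU _) h fun n => ?_
  change ‖x.1 n - y.1 n‖ ≤ _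
  rw [hx, hy, ← tens_sub_left]
  exact norm_tens_one_le _

/-- the embedding of `A` -/
noncomputable def θA : A →⋆ₐ[ℂ] C where
  toFun b := U (sqA hφ Ω b)
  map_one' := by
    rw [← map_one U]
    exact U_eq U hU (fun _ => rfl) (fun _ => tens_one.symm) hφ.2.2.2.2.2.1
  map_mul' b b' := by
    rw [← map_mul U]
    exact U_eq U hU (fun _ => rfl) (fun n => (tens_mul _ _ _ _).trans (by rw [mul_one]))
      (hφ.2.2.2.1 b b')
  map_zero' := by
    have h := hφ.2.2.1 0 0
    rw [← map_zero U]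
    refine U_eq U hU (fun _ => rfl) (b' := fun n => (0 : ℂ) • φ n 0)
      (fun n => by rw [tens_smul_left, zero_smul]; rfl) (by simpa using h)
  map_add' b b' := by
    rw [← map_add U]
    exact U_eq U hU (fun _ => rfl) (fun n => (tens_add_left _ _ _).symm) (hφ.2.1 b b')
  commutes' c := by
    have h1 : U (sqA hφ Ω 1) = 1 := by
      rw [← map_one U]
      exact U_eq U hU (fun _ => rfl) (fun _ => tens_one.symm) hφ.2.2.2.2.2.1
    rw [Algebra.algebraMap_eq_smul_one, Algebra.algebraMap_eq_smul_one, ← h1, ← map_smul U]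
    exact U_eq U hU (fun _ => rfl) (fun n => (tens_smul_left _ _ _).symm) (hφ.2.2.1 c 1)
  map_star' b := by
    rw [← map_star U]
    exact U_eq U hU (fun _ => rfl)
      (fun n => (tens_star _ _).trans (by rw [Matrix.conjTranspose_one])) (hφ.2.2.2.2.1 b)

theorem θA_apply (b : A) : θA hφ U hU b = U (sqA hφ Ω b) := rfl

variable (O Ω) in
/-- scalar matrices -/
noncomputable def τM : (∀ n, Matrix (Ω n) (Ω n) ℂ) →⋆ₐ[ℂ] ∀ n, CStarMatrix (Ω n) (Ω n) O where
  toFun c n := tens 1 (c n)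
  map_one' := funext fun _ => tens_one
  map_mul' c c' := funext fun n => by
    change _ = tens (1 : O) (c n) * tens (1 : O) (c' n)
    rw [tens_mul, mul_one]; rfl
  map_zero' := funext fun _ => tens_zero_right _
  map_add' c c' := funext fun n => tens_add_right _ _ _
  commutes' z := funext fun n => by
    rw [Algebra.algebraMap_eq_smul_one, Algebra.algebraMap_eq_smul_one]
    change tens 1 (z • 1) = z • 1
    rw [tens_smul_right, tens_one]
  map_star' c := funext fun n => by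
    change _ = star (tens 1 (c n))
    rw [tens_star, star_one]; rfl

variable (O Ω) in
/-- bounded sequences of scalar matrices -/
noncomputable def MS : StarSubalgebra ℂ (∀ n, Matrix (Ω n) (Ω n) ℂ) :=
  (BSeq (fun n => CStarMatrix (Ω n) (Ω n) O)).comap (τM O Ω)

theorem mem_MS {c : ∀ n, Matrix (Ω n) (Ω n) ℂ}
    (hc : ∀ n, (c n)ᴴ * c n * ((c n)ᴴ * c n) = (c n)ᴴ * c n) : c ∈ MS O Ω :=
  ⟨‖(1 : O)‖, fun n => norm_tens_le _ (hc n)⟩

/-- the image of scalar matrices -/
noncomputable def βM : MS O Ω →⋆ₐ[ℂ] C :=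
  U.comp (((τM O Ω).comp (MS O Ω).subtype).codRestrict _ fun c => c.2)

theorem βM_apply (c : MS O Ω) : βM U c = U ⟨fun n => tens 1 (c.1 n), c.2⟩ := rfl

theorem θA_comm (b : A) (c : MS O Ω) : Commute (θA hφ U hU b) (βM U c) := by
  rw [θA_apply, βM_apply]
  refine Commute.map (f := U) (Subtype.ext (funext fun n => ?_))
  change tens (φ n b) 1 * tens (1 : O) (c.1 n) = tens (1 : O) (c.1 n) * tens (φ n b) 1
  simp only [tens_mul, mul_one, one_mul]

theorem tendsto_θβ {σ : Type} [Fintype σ] (b : σ → A) (c : σ → MS O Ω) :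
    Tendsto (fun n => ‖∑ s, tens (φ n (b s)) ((c s).1 n)‖) (ω : Filter ℕ)
      (𝓝 ‖∑ s, θA hφ U hU (b s) * βM U (c s)‖) := by
  simp only [θA_apply, βM_apply, ← map_mul, ← map_sum]
  convert hU _ using 3 with n
  rw [AddSubmonoidClass.coe_finsetSum, Finset.sum_apply]
  refine Finset.sum_congr rfl fun s _ => ?_
  change _ = tens (φ n (b s)) 1 * tens (1 : O) ((c s).1 n)
  simp only [tens_mul, mul_one, one_mul]

end ultra

theorem base_ne {G A : Type} [Group G] [CStarAlgebra A] (u : G →* unitary A)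
    (hA : IsFullGroupCStar A u) (ι : Aff R →* G) (g₀ : G) {B : Type} [CStarAlgebra B]
    (w : G →* unitary B) (ξB : B) (hξ1 : ∀ g, (w (ι g) : B) * ξB = ξB)
    (hξ2 : (w g₀ : B) * ξB ≠ ξB) :
    ∃ q : A, (∀ i, (u (ι (yy i)) : A) * q = q) ∧ (u g₀ : A) * q ≠ q := by
  let uA : G →* A := (unitary A).subtype.comp u
  have huA : ∀ g, star (uA g) = uA g⁻¹ := fun g => by
    change star (u g : A) = (u g⁻¹ : A)
    rw [map_inv, ← Unitary.star_eq_inv, Unitary.coe_star]
  obtain ⟨q, -, hq2, hq3, hq4, -⟩ := gap (uA.comp ι) (fun g => by simpa using huA (ι g)) kaz_yy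
  refine ⟨q, hq3, fun hq => hξ2 ?_⟩
  obtain ⟨π, hπ⟩ := hA.2 B w
  have hS : π (avS (uA.comp ι) yy) * ξB = (4 : ℂ) • ξB := by
    have : π (avS (uA.comp ι) yy) = avS (((unitary B).subtype.comp w).comp ι) yy := by
      simp only [avS, map_sum, map_smul]
      refine Finset.sum_congr rfl fun i _ => Finset.sum_congr rfl fun j _ => ?_
      congr 1
      exact hπ _
    rw [this]
    exact avS_mul_of_inv _ _ fun i => hξ1 _
  have hSq : avS (uA.comp ι) yy * q = (4 : ℂ) • q := avS_mul_of_inv _ _ hq3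
  have h1 : π (avS (uA.comp ι) yy * (1 - q)) * (π (1 - q) * ξB) = (4 : ℂ) • (π (1 - q) * ξB) := by
    have e : avS (uA.comp ι) yy * (1 - q) * (1 - q) = avS (uA.comp ι) yy - (4 : ℂ) • q := by
      rw [mul_assoc, sub_mul, one_mul, mul_sub q, hq2, mul_one, sub_self, sub_zero, mul_sub, hSq,
        mul_one]
    rw [← mul_assoc, ← map_mul, e, map_sub, map_sub, map_smul, map_one, sub_mul, sub_mul, hS,
      smul_sub, one_mul, smul_mul_assoc]
  have h2 := norm_mul_le (π (avS (uA.comp ι) yy * (1 - q))) (π (1 - q) * ξB)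
  have h3 := (NonUnitalStarAlgHom.norm_apply_le π (avS (uA.comp ι) yy * (1 - q))).trans hq4
  rw [h1, norm_smul] at h2
  simp only [Complex.norm_ofNat] at h2
  have h4 : π (1 - q) * ξB = 0 := by
    rw [← norm_le_zero_iff]
    nlinarith [norm_nonneg (π (1 - q) * ξB)]
  rw [map_sub, map_one, sub_mul, one_mul, sub_eq_zero] at h4
  rw [h4, ← mul_assoc, ← hπ, ← map_mul, hq]

theorem exists_step {f : ℕ → Prop} (h0 : f 0) {k : ℕ} (hk : ¬ f k) :
    ∃ j, j + 1 ≤ k ∧ f j ∧ ¬ f (j + 1) := by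
  induction k with
  | zero => exact absurd h0 hk
  | succ k ih =>
    by_cases h : f k
    · exact ⟨k, le_rfl, h, hk⟩
    · obtain ⟨j, h1, h2⟩ := ih h
      exact ⟨j, h1.trans k.le_succ, h2⟩

theorem main {G A O : Type} [Group G] [CStarAlgebra A] [CStarAlgebra O] (u : G →* unitary A)
    {s₁ s₂ : O} (hO : IsCuntzTwo O s₁ s₂) (ι : Aff R →* G) (t : G)
    (ht : ∀ g, t * ι g * t⁻¹ = ι (Aff.sg Polynomial.X g)) (q : A)
    (hq1 : ∀ i, (u (ι (yy i)) : A) * q = q) (hq2 : (u (t⁻¹ * ι (yy 3) * t) : A) * q ≠ q)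
    (ω : Ultrafilter ℕ) (φ : ℕ → A → O) (hφ : IsUltrapowerEmbedding ω A O φ) : False := by
  classical
  let _ : PartialOrder O := CStarAlgebra.spectralOrder O
  have : StarOrderedRing O := CStarAlgebra.spectralOrderedRing O
  let uA : G →* A := (unitary A).subtype.comp u
  have huA : ∀ g, star (uA g) = uA g⁻¹ := fun g => by
    change star (u g : A) = (u g⁻¹ : A)
    rw [map_inv, ← Unitary.star_eq_inv, Unitary.coe_star]
  let b : ℕ → Fin 4 × Fin 101 → O := fun n s => φ n (uA (ι (yy s.1 ^ (s.2 : ℕ))))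
  choose K hK2 hK using fun n => fin_levels hO (b n)
  choose Ω iF iD a P J hM using fun n => exists_model (K n) (by have := hK2 n; omega)
  obtain ⟨C, _, U, hU⟩ := exists_ultra ω fun n => CStarMatrix (Ω n) (Ω n) O
  let θ := θA hφ U hU
  let β := βM U
  have hθβ : ∀ x c, Commute (θ x) (β c) := θA_comm hφ U hU
  let Θ : G →* C := (θ : A →* C).comp uA
  let αM : Aff R →* MS O Ω :=
    { toFun := fun g => ⟨fun n => pm (a n g), mem_MS fun n => by
        rw [pm_conjTranspose, ← pm_mul, inv_mul_cancel, pm_one, one_mul]⟩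
      map_one' := Subtype.ext (funext fun n => by simp [pm_one])
      map_mul' := fun g g' => Subtype.ext (funext fun n => by simp [pm_mul]) }
  let α : Aff R →* C := (β : MS O Ω →* C).comp αM
  let JM : MS O Ω := ⟨J, mem_MS fun n => (hM n).J_idem⟩
  let PM : (ℕ → ℕ) → MS O Ω := fun j => ⟨fun n => P n (j n), mem_MS fun n => by
    simp only [(hM n).P_star, (hM n).P_mul _ _ le_rfl]⟩
  let eM : (ℕ → ℕ) → MS O Ω := fun k => PM (fun n => k n + 1) - PM k
  have heM : ∀ k n, (eM k).1 n = lev (P n) (k n) := fun k n => rfl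
  have hS : Setup ι t Θ α (β JM) :=
    { conj := ht
      Θ_star := fun g => by
        change star (θ (uA g)) = θ (uA g⁻¹)
        rw [← map_star, huA]
      α_star := fun g => by
        change star (β (αM g)) = β (αM g⁻¹)
        rw [← map_star]
        congr 1
        refine Subtype.ext (funext fun n => ?_)
        change (pm (a n g))ᴴ = pm (a n g⁻¹)
        rw [pm_conjTranspose, map_inv]
      cα := fun g g' => hθβ _ _
      cJ := fun g => hθβ _ _
      cJs := fun g => by rw [← map_star]; exact hθβ _ _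
      inter := fun g => by
        change β (αM _) * β JM = β JM * β (αM _)
        rw [← map_mul, ← map_mul]
        congr 1
        exact Subtype.ext (funext fun n => (hM n).J_inter g)
      orth := fun w hw => by
        change star (β JM) * β (αM _) * β JM = 0
        rw [← map_star, ← map_mul, ← map_mul, ← map_zero β]
        congr 1
        exact Subtype.ext (funext fun n => (hM n).J_orth w hw) }
  have hρ : ∀ g, hS.ρ g = θ (uA (ι g)) * β (αM g) := fun g => rfl
  have hPc : ∀ g j, Commute (hS.ρ g) (β (PM j)) := fun g j => by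
    rw [hρ]
    refine (hθβ _ _).mul_left (Commute.map (f := β) ?_)
    exact Subtype.ext (funext fun n => (hM n).P_comm g (j n))
  have hec : ∀ g k, Commute (hS.ρ g) (β (eM k)) := fun g k => by
    simp only [eM, map_sub]
    exact (hPc g _).sub_right (hPc g _)
  have hee : ∀ k, β (eM k) * β (eM k) = β (eM k) := fun k => by
    rw [← map_mul]
    congr 1
    refine Subtype.ext (funext fun n => ?_)
    change lev (P n) (k n) * lev (P n) (k n) = lev (P n) (k n)
    rw [(hM n).lev_mul, if_pos rfl]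
  have hes : ∀ k, star (β (eM k)) = β (eM k) := fun k => by
    rw [← map_star]
    congr 1
    exact Subtype.ext (funext fun n => (hM n).lev_star (k n))
  have hlim : ∀ k : ℕ → ℕ, Tendsto (fun n => ‖TTl (b n) (a n) (P n) (k n)‖) (ω : Filter ℕ)
      (𝓝 ‖avS hS.ρ yy * β (eM k)‖) := fun k => by
    have := tendsto_θβ hφ U hU (fun s : Fin 4 × Fin 101 => uA (ι (yy s.1 ^ (s.2 : ℕ))))
      (fun s => (1 / 101 : ℂ) • (αM (yy s.1 ^ (s.2 : ℕ)) * eM k))
    have e : avS hS.ρ yy * β (eM k) = ∑ s : Fin 4 × Fin 101,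
        θ (uA (ι (yy s.1 ^ (s.2 : ℕ)))) * β ((1 / 101 : ℂ) • (αM (yy s.1 ^ (s.2 : ℕ)) * eM k)) := by
      simp only [avS, Fintype.sum_prod_type, Finset.sum_mul, hρ, map_smul, map_mul β,
        smul_mul_assoc, mul_smul_comm, mul_assoc]
    rw [e]
    exact this
  have hJP : ∀ j : ℕ → ℕ, β (PM fun n => j n + 1) * β JM = β JM * β (PM j) := fun j => by
    rw [← map_mul, ← map_mul]
    congr 1
    exact Subtype.ext (funext fun n => (hM n).J_P (j n))
  have hJJ : ∀ j : ℕ → ℕ, (∀ n, j n + 1 ≤ K n) →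
      star (β JM) * β JM * β (PM j) = β (PM j) := fun j hj => by
    rw [← map_star, ← map_mul, ← map_mul]
    congr 1
    exact Subtype.ext (funext fun n => (hM n).J_level (j n) (hj n))
  have hΘP : ∀ g j, Commute (Θ g) (β (PM j)) := fun g j => hθβ _ _
  -- moving `P` through the transfer
  have hmove : ∀ (j : ℕ → ℕ) (ξ : C), β (PM fun n => j n + 1) * (hS.PW * (Θ t * β JM * ξ)) =
      hS.PW * (Θ t * β JM * (β (PM j) * ξ)) := fun j ξ => by
    rw [← mul_assoc, ← (hS.PW_comm fun g => hPc g _).eq, mul_assoc]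
    congr 1
    rw [← mul_assoc, ← mul_assoc, ← (hΘP t _).eq, mul_assoc (Θ t), hJP]
    simp only [mul_assoc]
  -- base level
  have hbase : 4 ≤ ‖avS hS.ρ yy * β (eM fun _ => 0)‖ := by
    let P0 := β (PM fun _ => 0)
    have hαP : ∀ g, α g * P0 = P0 := fun g => by
      change β (αM g) * β _ = β _
      rw [← map_mul]
      congr 1
      exact Subtype.ext (funext fun n => (hM n).P_zero g)
    have hPP : P0 * P0 = P0 := by
      simp only [P0]
      rw [← map_mul]
      congr 1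
      exact Subtype.ext (funext fun n => (hM n).P_mul 0 0 le_rfl)
    let ξ := θ q * P0
    have hPξ : P0 * ξ = ξ := by
      rw [← mul_assoc, ← (hθβ _ _).eq, mul_assoc, hPP]
    have hξ : ∀ i, hS.ρ (yy i) * ξ = ξ := fun i => by
      rw [hρ, mul_assoc, ← mul_assoc (β _), ← (hθβ _ _).eq, mul_assoc, ← mul_assoc (θ _),
        ← map_mul θ]
      change θ ((u (ι (yy i)) : A) * q) * (α (yy i) * P0) = _
      rw [hq1, hαP]
    set η := hS.PW * (Θ t * β JM * ξ) with hη
    have hinv : ∀ i, hS.ρ (yy i) * η = η := hS.transfer_inv hξ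
    refine four_le_of_inv _ _ (ξ := β (eM fun _ => 0) * η) (fun i => ?_)
      (by rw [← mul_assoc, hee]) fun h0 => hq2 ?_
    · rw [← mul_assoc, (hec _ _).eq, mul_assoc, hinv]
    · have h1 : η = P0 * η := by
        simp only [eM, map_sub, sub_mul, sub_eq_zero] at h0
        rw [← h0, hη, hmove (fun _ => 0), hPξ]
      have h2 : Θ (ι (yy 3)) * η = η := by
        conv_rhs => rw [← hinv 3, hS.ρ_apply, mul_assoc, h1, ← mul_assoc (α _), hαP, ← h1]
      have h3 := hS.transfer_back (ι (yy 3)) ξ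
      have h4 := hS.transfer_back 1 ξ
      rw [← hη] at h3 h4
      rw [h2] at h3
      rw [map_one, one_mul, h3] at h4
      have h5 := smul_right_injective C card_inv_ne h4
      have h6 : star (β JM) * β JM * ξ = ξ := by
        rw [← hPξ, ← mul_assoc, hJJ _ fun n => by have := hK2 n; omega]
      simp only [h6, mul_one, inv_mul_cancel, map_one, one_mul] at h5
      have h7 : θ ((u (t⁻¹ * ι (yy 3) * t) : A) * q - q) * P0 = 0 := by
        rw [map_sub, map_mul, sub_mul, mul_assoc, sub_eq_zero]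
        exact h5
      have h8 := tendsto_θβ hφ U hU (fun _ : Unit => (u (t⁻¹ * ι (yy 3) * t) : A) * q - q)
        (fun _ => PM fun _ => 0)
      simp only [Finset.univ_unique, Finset.sum_singleton] at h8
      have h9 : ∀ n, ‖tens (φ n ((u (t⁻¹ * ι (yy 3) * t) : A) * q - q)) ((PM fun _ => 0).1 n)‖ =
          ‖φ n ((u (t⁻¹ * ι (yy 3) * t) : A) * q - q)‖ := fun n =>
        norm_tens_proj _ ((hM n).P_star 0) ((hM n).P_mul 0 0 le_rfl) (hM n).P_ne
      simp only [h9] at h8
      have h10 := tendsto_nhds_unique h8 (hφ.2.2.2.2.2.2 _)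
      change ‖θ _ * P0‖ = _ at h10
      rw [h7, norm_zero] at h10
      exact sub_eq_zero.1 (norm_eq_zero.1 h10.symm)
  -- choice of the critical level
  let good : ℕ → ℕ → Prop := fun n k => 4 - 1 / 1000 ≤ ‖TTl (b n) (a n) (P n) k‖
  have hev : ∀ᶠ n in (ω : Filter ℕ), (∀ s, ‖b n s‖ ≤ 1001 / 1000) ∧ good n 0 := by
    refine Eventually.and (eventually_all.2 fun s => ?_) ?_
    · refine (hφ.2.2.2.2.2.2 _).eventually (eventually_le_nhds ?_)
      have : ‖uA (ι (yy s.1 ^ (s.2 : ℕ)))‖ ≤ 1 := by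
        have h1 := CStarRing.norm_star_mul_self (x := uA (ι (yy s.1 ^ (s.2 : ℕ))))
        rw [huA, ← map_mul, inv_mul_cancel, map_one] at h1
        have h2 : ‖(1 : A)‖ ≤ 1 := (IsStarProjection.one _).norm_le
        nlinarith [norm_nonneg (uA (ι (yy s.1 ^ (s.2 : ℕ))))]
      linarith
    · exact (hlim fun _ => 0).eventually (eventually_ge_nhds (by linarith))
  have hex : ∀ n, ∃ k, k + 1 + 1 ≤ K n ∧ (((∀ s, ‖b n s‖ ≤ 1001 / 1000) ∧ good n 0) →
      good n k ∧ ¬ good n (k + 1)) := fun n => by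
    by_cases hn : (∀ s, ‖b n s‖ ≤ 1001 / 1000) ∧ good n 0
    · obtain ⟨k, hk1, hk2⟩ := hK n hn.1 (Ω n) (a n) (P n) (J n) (hM n)
      obtain ⟨j, hj1, hj2⟩ := exists_step (f := good n) hn.2 (k := k)
        (by simp only [good]; linarith)
      exact ⟨j, by omega, fun _ => hj2⟩
    · exact ⟨0, hK2 n, fun h => absurd h hn⟩
  choose k hk1 hk2 using hex
  have h1 : 4 - 1 / 1000 ≤ ‖avS hS.ρ yy * β (eM k)‖ :=
    ge_of_tendsto (hlim k) (hev.mono fun n hn => (hk2 n hn).1)
  have h2 : ‖avS hS.ρ yy * β (eM fun n => k n + 1)‖ ≤ 4 - 1 / 1000 :=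
    le_of_tendsto (hlim _) (hev.mono fun n hn => (not_le.1 (hk2 n hn).2).le)
  obtain ⟨ξ, hξ0, hξe, hξ⟩ := exists_inv_of_lt hS.ρ hS.ρ_star kaz_yy (fun i => (hec _ k).symm)
    (hee k) (IsStarProjection.norm_le _ ⟨hee k, hes k⟩) (by linarith)
  have hPe : β (PM fun n => k n + 1) * β (eM k) = β (eM k) := by
    rw [← map_mul]
    congr 1
    refine Subtype.ext (funext fun n => ?_)
    change P n (k n + 1) * (P n (k n + 1) - P n (k n)) = P n (k n + 1) - P n (k n)
    rw [mul_sub, (hM n).P_mul _ _ le_rfl, (hM n).P_mul' _ _ (Nat.le_succ _)]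
  have hPξ : β (PM fun n => k n + 1) * ξ = ξ := by rw [← hξe, ← mul_assoc, hPe]
  have h3 := four_le_of_inv hS.ρ yy (e := β (eM fun n => k n + 1)) (hS.transfer_inv hξ) (by
    simp only [eM, map_sub, sub_mul] at hξe ⊢
    rw [hmove (fun n => k n + 1), hmove k, ← mul_sub, ← mul_sub, hξe]) (fun h0 => hξ0 (by
    have h4 := hS.transfer_back 1 ξ
    have h6 : star (β JM) * β JM * ξ = ξ := by
      rw [← hPξ, ← mul_assoc, hJJ _ hk1]
    rw [h0, h6] at h4
    simp only [mul_zero, mul_one, inv_mul_cancel, map_one, one_mul] at h4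
    exact (smul_eq_zero.1 h4.symm).resolve_left card_inv_ne))
  linarith

theorem final :
    ∃ (Γ : Type) (_ : Group Γ) (_ : Countable Γ) (A : Type) (_ : CStarAlgebra A) (u : Γ →* unitary A),
      IsFullGroupCStar A u ∧
      ∃ (O : Type) (_ : CStarAlgebra O) (s₁ s₂ : O), IsCuntzTwo O s₁ s₂ ∧
        ∀ ω : Ultrafilter ℕ, (∀ n : ℕ, (ω : Filter ℕ) ≠ pure n) →
          ¬ ∃ φ : ℕ → A → O, IsUltrapowerEmbedding ω A O φ := by
  obtain ⟨G, _, _, ι, t, ht, B, _, w, ξ, hξ1, hξ2⟩ := exists_group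
  obtain ⟨A, _, u, hA⟩ := exists_fullGroup G
  obtain ⟨O, _, s₁, s₂, hO⟩ := exists_cuntz
  obtain ⟨q, hq1, hq2⟩ := base_ne u hA ι _ w ξ hξ1 hξ2
  exact ⟨G, inferInstance, inferInstance, A, inferInstance, u, hA, O, inferInstance, s₁, s₂, hO,
    fun ω _ ⟨φ, hφ⟩ => main u hO ι t ht q hq1 hq2 ω φ hφ⟩

end Crest.Agent.R073
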