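import Crest.Agent.R073.Defs

/-! Row 73: group-theoretic facts and the finite models. -/

set_option autoImplicit false

open scoped Matrix

namespace Crest.Agent.R073

namespace Aff

variable {S : Type} [CommRing S]

theorem lin_mul (a b : (Matrix (Fin 3) (Fin 3) S)ˣ) : lin a * lin b = lin (a * b) :=
  Aff.ext (by simp [lin]) rfl

theorem lin_inv (a : (Matrix (Fin 3) (Fin 3) S)ˣ) : (lin a)⁻¹ = lin a⁻¹ :=
  Aff.ext (by simp [lin]) rfl

theorem lin_one : lin (1 : (Matrix (Fin 3) (Fin 3) S)ˣ) = 1 := rfl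

theorem tr_add (m m' : Fin 3 → S) : tr (m + m') = tr m * tr m' :=
  Aff.ext (by simp [tr]) (by simp [tr])

theorem tr_zero : tr (0 : Fin 3 → S) = 1 := rfl

theorem tr_neg (m : Fin 3 → S) : tr (-m) = (tr m)⁻¹ :=
  Aff.ext (by simp [tr]) (by simp [tr])

theorem tr_nsmul (n : ℕ) (m : Fin 3 → S) : tr (n • m) = tr m ^ n := by
  induction n with
  | zero => simp [tr_zero]
  | succ n ih => rw [succ_nsmul, tr_add, ih, pow_succ]

theorem mul_tr (g : Aff S) (m : Fin 3 → S) : g * tr m = tr (g.γ.val *ᵥ m) * g :=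
  Aff.ext (by simp [tr, add_comm]) (by simp [tr])

theorem conj_tr (g : Aff S) (m : Fin 3 → S) : g * tr m * g⁻¹ = tr (g.γ.val *ᵥ m) := by
  rw [mul_tr, mul_inv_cancel_right]

theorem comm_tr (g : Aff S) (m : Fin 3 → S) :
    g * tr m * g⁻¹ * (tr m)⁻¹ = tr (g.γ.val *ᵥ m - m) := by
  rw [conj_tr, ← tr_neg, ← tr_add, sub_eq_add_neg]

theorem tr_commute (m m' : Fin 3 → S) : Commute (tr m) (tr m') := by
  unfold Commute SemiconjBy
  rw [← tr_add, ← tr_add, add_comm]

theorem commute_lin_tr (a : (Matrix (Fin 3) (Fin 3) S)ˣ) (m : Fin 3 → S) (h : a.val *ᵥ m = m) :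
    Commute (lin a) (tr m) := by
  unfold Commute SemiconjBy
  rw [mul_tr]
  simp only [lin]
  rw [h]

theorem el_mul (i j : Fin 3) (h : i ≠ j) (c d : S) : el i j h c * el i j h d = el i j h (c + d) :=
  Units.ext (Matrix.transvection_mul_transvection_same _ _ h _ _)

theorem el_zero (i j : Fin 3) (h : i ≠ j) : el i j h (0 : S) = 1 :=
  Units.ext (by simp [el])

theorem el_pow (i j : Fin 3) (h : i ≠ j) (c : S) (n : ℕ) : el i j h c ^ n = el i j h (n • c) := by
  induction n with
  | zero => simp [el_zero]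
  | succ n ih => rw [pow_succ, ih, el_mul, succ_nsmul]

theorem lin_pow (a : (Matrix (Fin 3) (Fin 3) S)ˣ) (n : ℕ) : lin a ^ n = lin (a ^ n) := by
  induction n with
  | zero => simp [lin_one]
  | succ n ih => rw [pow_succ, ih, lin_mul, pow_succ]

theorem el_val (i j : Fin 3) (h : i ≠ j) (c : S) :
    (el i j h c).val = Matrix.transvection i j c := rfl

theorem el_inv_val (i j : Fin 3) (h : i ≠ j) (c : S) :
    ((el i j h c)⁻¹).val = Matrix.transvection i j (-c) := rfl

theorem commute_lin {a b : (Matrix (Fin 3) (Fin 3) S)ˣ} (h : a.val * b.val = b.val * a.val) :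
    Commute (lin a) (lin b) := by
  unfold Commute SemiconjBy
  rw [lin_mul, lin_mul]
  congr 1
  exact Units.ext h

theorem heis_lin {a b c : (Matrix (Fin 3) (Fin 3) S)ˣ}
    (h : a.val * b.val * (a⁻¹).val * (b⁻¹).val = c.val)
    (h1 : c.val * a.val = a.val * c.val) (h2 : c.val * b.val = b.val * c.val) :
    Heis (lin a) (lin b) := by
  have e : lin a * lin b * (lin a)⁻¹ * (lin b)⁻¹ = lin c := by
    rw [lin_inv, lin_inv, lin_mul, lin_mul, lin_mul]
    congr 1
    exact Units.ext h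
  unfold Heis
  rw [e]
  exact ⟨commute_lin h1, commute_lin h2⟩

end Aff

theorem nsmul101 (c : R) : (101 : ℕ) • c = 0 := by
  rw [nsmul_eq_mul]
  have : ((101 : ℕ) : R) = 0 := CharP.cast_eq_zero R 101
  rw [this, zero_mul]

theorem yy0 : yy 0 = Aff.lin (Aff.el 0 1 (by decide) 1) := rfl
theorem yy1 : yy 1 = Aff.lin (Aff.el 1 2 (by decide) 1) := rfl
theorem yy2 : yy 2 = Aff.lin (Aff.el 2 0 (by decide) Polynomial.X) := rfl
theorem yy3 : yy 3 = Aff.tr (Pi.single 2 1) := rfl

theorem kaz_yy : Kaz yy := by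
  refine ⟨?_, ?_, ?_, ?_, ?_, ?_, ?_⟩
  · intro i
    fin_cases i
    · change yy 0 ^ 101 = 1
      rw [yy0, Aff.lin_pow, Aff.el_pow, nsmul101, Aff.el_zero, Aff.lin_one]
    · change yy 1 ^ 101 = 1
      rw [yy1, Aff.lin_pow, Aff.el_pow, nsmul101, Aff.el_zero, Aff.lin_one]
    · change yy 2 ^ 101 = 1
      rw [yy2, Aff.lin_pow, Aff.el_pow, nsmul101, Aff.el_zero, Aff.lin_one]
    · change yy 3 ^ 101 = 1
      rw [yy3, ← Aff.tr_nsmul]
      have : (101 : ℕ) • (Pi.single 2 1 : Fin 3 → R) = 0 := by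
        ext1 i; exact nsmul101 _
      rw [this, Aff.tr_zero]
  · rw [yy0, yy1]
    refine Aff.heis_lin (c := Aff.el 0 2 (by decide) 1) ?_ ?_ ?_ <;>
    · simp only [Aff.el_val, Aff.el_inv_val]
      ext1 i j
      fin_cases i <;> fin_cases j <;>
        simp [Matrix.transvection, Matrix.mul_apply, Fin.sum_univ_three, Matrix.one_apply,
          Matrix.single_apply]
  · rw [yy1, yy2]
    refine Aff.heis_lin (c := Aff.el 1 0 (by decide) Polynomial.X) ?_ ?_ ?_ <;>
    · simp only [Aff.el_val, Aff.el_inv_val]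
      ext1 i j
      fin_cases i <;> fin_cases j <;>
        simp [Matrix.transvection, Matrix.mul_apply, Fin.sum_univ_three, Matrix.one_apply,
          Matrix.single_apply]
  · rw [yy2, yy0]
    refine Aff.heis_lin (c := Aff.el 2 1 (by decide) Polynomial.X) ?_ ?_ ?_ <;>
    · simp only [Aff.el_val, Aff.el_inv_val]
      ext1 i j
      fin_cases i <;> fin_cases j <;>
        simp [Matrix.transvection, Matrix.mul_apply, Fin.sum_univ_three, Matrix.one_apply,
          Matrix.single_apply]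
  · rw [yy1, yy3]
    unfold Heis
    rw [Aff.comm_tr]
    refine ⟨(Aff.commute_lin_tr _ _ ?_).symm, Aff.tr_commute _ _⟩
    ext1 i
    fin_cases i <;>
      simp [Aff.lin, Aff.el_val, Matrix.transvection, Matrix.mulVec, dotProduct,
        Fin.sum_univ_three, Matrix.one_apply, Matrix.single_apply]
  · rw [yy0, yy3]
    refine Aff.commute_lin_tr _ _ ?_
    ext1 i
    fin_cases i <;>
      simp [Aff.el_val, Matrix.transvection, Matrix.mulVec, dotProduct,
        Fin.sum_univ_three, Matrix.one_apply, Matrix.single_apply]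
  · rw [yy2, yy3]
    refine Aff.commute_lin_tr _ _ ?_
    ext1 i
    fin_cases i <;>
      simp [Aff.el_val, Matrix.transvection, Matrix.mulVec, dotProduct,
        Fin.sum_univ_three, Matrix.one_apply, Matrix.single_apply]

theorem tr_step (H : Subgroup (Aff R)) (i j : Fin 3) (h : i ≠ j) (c p : R)
    (hy : Aff.lin (Aff.el i j h c) ∈ H) (hp : Aff.tr (Pi.single j p) ∈ H) :
    Aff.tr (Pi.single i (c * p)) ∈ H := by
  have h1 := H.mul_mem (H.mul_mem (H.mul_mem hy hp) (H.inv_mem hy)) (H.inv_mem hp)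
  rw [Aff.comm_tr] at h1
  convert h1 using 2
  simp only [Aff.lin, Aff.el_val, Matrix.transvection, Matrix.add_mulVec, Matrix.one_mulVec,
    add_sub_cancel_left]
  ext1 k
  by_cases hk : k = i
  · subst hk
    simp [Matrix.mulVec, dotProduct, Matrix.single_apply, Pi.single_apply]
  · simp [Matrix.mulVec, dotProduct, Matrix.single_apply, hk, Ne.symm hk]

/-- the generators generate all translations -/
theorem tr_mem_of_yy (H : Subgroup (Aff R)) (hH : ∀ i, yy i ∈ H) (m : Fin 3 → R) :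
    Aff.tr m ∈ H := by
  have h0 := hH 0
  have h1 := hH 1
  have h2 := hH 2
  have h3 := hH 3
  rw [yy0] at h0
  rw [yy1] at h1
  rw [yy2] at h2
  rw [yy3] at h3
  have s21 : ∀ p : R, Aff.tr (Pi.single 2 p) ∈ H → Aff.tr (Pi.single 1 p) ∈ H := fun p hp => by
    simpa using tr_step H 1 2 _ 1 p h1 hp
  have s10 : ∀ p : R, Aff.tr (Pi.single 1 p) ∈ H → Aff.tr (Pi.single 0 p) ∈ H := fun p hp => by
    simpa using tr_step H 0 1 _ 1 p h0 hp
  have s02 : ∀ p : R, Aff.tr (Pi.single 0 p) ∈ H →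
      Aff.tr (Pi.single 2 (Polynomial.X * p)) ∈ H := fun p hp => tr_step H 2 0 _ _ p h2 hp
  have hx : ∀ n : ℕ, Aff.tr (Pi.single 2 (Polynomial.X ^ n) : Fin 3 → R) ∈ H := by
    intro n
    induction n with
    | zero => simpa using h3
    | succ n ih => rw [pow_succ']; exact s02 _ (s10 _ (s21 _ ih))
  have hp : ∀ p : R, Aff.tr (Pi.single 2 p : Fin 3 → R) ∈ H := by
    intro p
    induction p using Polynomial.induction_on' with
    | add p q hp hq => rw [Pi.single_add, Aff.tr_add]; exact H.mul_mem hp hq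
    | monomial n a =>
      have e : (Pi.single 2 (Polynomial.monomial n a) : Fin 3 → R) =
          a.val • (Pi.single 2 (Polynomial.X ^ n) : Fin 3 → R) := by
        rw [← Pi.single_smul]
        congr 1
        rw [← Polynomial.C_mul_X_pow_eq_monomial, nsmul_eq_mul]
        congr 1
        rw [← Polynomial.C_eq_natCast, ZMod.natCast_zmod_val]
      rw [e, Aff.tr_nsmul]
      exact H.pow_mem (hx n) _
  have e : m = Pi.single 0 (m 0) + Pi.single 1 (m 1) + Pi.single 2 (m 2) := by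
    ext1 i
    fin_cases i <;> simp
  rw [e, Aff.tr_add, Aff.tr_add]
  exact H.mul_mem (H.mul_mem (s10 _ (s21 _ (hp _))) (s21 _ (hp _))) (hp _)

theorem pm_mul {Ω : Type} [Fintype Ω] [DecidableEq Ω] (σ τ : Equiv.Perm Ω) :
    pm (σ * τ) = pm σ * pm τ := by
  ext u v
  simp [pm, Matrix.mul_apply]

theorem pm_one {Ω : Type} [DecidableEq Ω] : pm (1 : Equiv.Perm Ω) = 1 := by
  ext u v
  simp [pm, Matrix.one_apply]

theorem pm_conjTranspose {Ω : Type} [DecidableEq Ω] (σ : Equiv.Perm Ω) : (pm σ)ᴴ = pm σ⁻¹ := by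
  ext u v
  simp only [pm, Matrix.conjTranspose_apply, Matrix.of_apply, Equiv.Perm.eq_inv_iff_eq]
  by_cases h : v = σ u
  · simp [h]
  · simp [h, Ne.symm h]

theorem pm_transpose {Ω : Type} [DecidableEq Ω] (σ : Equiv.Perm Ω) : (pm σ)ᵀ = pm σ⁻¹ := by
  ext u v
  simp only [pm, Matrix.transpose_apply, Matrix.of_apply, Equiv.Perm.eq_inv_iff_eq]
  by_cases h : v = σ u
  · simp [h]
  · simp [h, Ne.symm h]

end Crest.Agent.R073
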