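import Crest.Agent.R073.Defs
import Crest.Agent.R342.Basic

/-! Row 73: elementary tensors in matrix algebras over a C⋆-algebra. -/

set_option autoImplicit false
set_option linter.unusedSectionVars false

open scoped Matrix
open Crest.Agent.R342 (nsq)

namespace Crest.Agent.R073

variable {Ω B : Type} [Fintype Ω] [DecidableEq Ω] [CStarAlgebra B] [PartialOrder B]
  [StarOrderedRing B]

omit [Fintype Ω] [DecidableEq Ω] [PartialOrder B] [StarOrderedRing B] in
theorem tens_apply (b : B) (a : Matrix Ω Ω ℂ) (u v : Ω) : tens b a u v = a u v • b := rfl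

theorem tens_mul (b b' : B) (a a' : Matrix Ω Ω ℂ) :
    tens b a * tens b' a' = tens (b * b') (a * a') := by
  ext u v
  simp only [CStarMatrix.mul_apply, tens_apply, Matrix.mul_apply, Finset.sum_smul,
    smul_mul_smul_comm]

theorem tens_star (b : B) (a : Matrix Ω Ω ℂ) : star (tens b a) = tens (star b) aᴴ := by
  ext u v
  simp only [CStarMatrix.star_apply, tens_apply, star_smul, Matrix.conjTranspose_apply]

theorem tens_one : tens (1 : B) (1 : Matrix Ω Ω ℂ) = 1 := by
  ext u v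
  simp only [tens_apply, Matrix.one_apply, CStarMatrix.one_apply]
  split_ifs <;> simp

theorem tens_add_left (b b' : B) (a : Matrix Ω Ω ℂ) : tens (b + b') a = tens b a + tens b' a := by
  ext u v
  simp only [tens_apply, CStarMatrix.add_apply, smul_add]

theorem tens_sub_left (b b' : B) (a : Matrix Ω Ω ℂ) : tens (b - b') a = tens b a - tens b' a := by
  ext u v
  simp only [tens_apply, CStarMatrix.sub_apply, smul_sub]

theorem tens_smul_left (c : ℂ) (b : B) (a : Matrix Ω Ω ℂ) : tens (c • b) a = c • tens b a := by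
  ext u v
  simp only [tens_apply, CStarMatrix.smul_apply]
  exact smul_comm _ _ _

theorem tens_add_right (b : B) (a a' : Matrix Ω Ω ℂ) : tens b (a + a') = tens b a + tens b a' := by
  ext u v
  simp only [tens_apply, CStarMatrix.add_apply, Matrix.add_apply, add_smul]

theorem tens_sub_right (b : B) (a a' : Matrix Ω Ω ℂ) : tens b (a - a') = tens b a - tens b a' := by
  ext u v
  simp only [tens_apply, CStarMatrix.sub_apply, Matrix.sub_apply, sub_smul]

theorem tens_smul_right (c : ℂ) (b : B) (a : Matrix Ω Ω ℂ) : tens b (c • a) = c • tens b a := by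
  ext u v
  simp only [tens_apply, CStarMatrix.smul_apply, Matrix.smul_apply, smul_eq_mul, mul_smul]

theorem tens_zero_right (b : B) : tens b (0 : Matrix Ω Ω ℂ) = 0 := by
  ext u v
  simp only [tens_apply, CStarMatrix.zero_apply, Matrix.zero_apply, zero_smul]

theorem tens_zero_left (a : Matrix Ω Ω ℂ) : tens (0 : B) a = 0 := by
  ext u v
  simp only [tens_apply, CStarMatrix.zero_apply, smul_zero]

/-- tensoring with a projection as a non-unital star homomorphism -/
noncomputable def tensHom {a : Matrix Ω Ω ℂ} (h1 : aᴴ = a) (h2 : a * a = a) :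
    B →⋆ₙₐ[ℂ] CStarMatrix Ω Ω B where
  toFun b := tens b a
  map_smul' c b := tens_smul_left c b a
  map_zero' := tens_zero_left a
  map_add' b b' := tens_add_left b b' a
  map_mul' b b' := by rw [tens_mul, h2]
  map_star' b := by rw [tens_star, h1]

/-- if `aᴴ a` is idempotent then `b ⊗ a` has norm at most `‖b‖` -/
theorem norm_tens_le (b : B) {a : Matrix Ω Ω ℂ} (ha : aᴴ * a * (aᴴ * a) = aᴴ * a) :
    ‖tens b a‖ ≤ ‖b‖ := by
  have h1 : (aᴴ * a)ᴴ = aᴴ * a := by
    rw [Matrix.conjTranspose_mul, Matrix.conjTranspose_conjTranspose]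
  have h2 : ‖tens (star b * b) (aᴴ * a)‖ ≤ ‖star b * b‖ :=
    NonUnitalStarAlgHom.norm_apply_le (tensHom (B := B) h1 ha) (star b * b)
  rw [← tens_mul, ← tens_star, CStarRing.norm_star_mul_self, CStarRing.norm_star_mul_self] at h2
  exact abs_le_of_sq_le_sq' (by simpa only [sq] using h2) (norm_nonneg _) |>.2

theorem norm_tens_proj (b : B) {a : Matrix Ω Ω ℂ} (h1 : aᴴ = a) (h2 : a * a = a) (h3 : a ≠ 0) :
    ‖tens b a‖ = ‖b‖ := by
  refine NonUnitalStarAlgHom.norm_map (tensHom (B := B) h1 h2) ?_ b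
  rw [injective_iff_map_eq_zero]
  intro x hx
  by_contra hx0
  apply h3
  ext u v
  have : tens x a u v = 0 := by
    have h : tens x a = 0 := hx
    rw [h]; rfl
  rw [tens_apply, smul_eq_zero] at this
  exact this.resolve_right hx0

section Rect

open scoped InnerProductSpace WithCStarModule
open CStarMatrix

variable {l m n : Type} [Fintype l] [Fintype m] [Fintype n]

omit [PartialOrder B] [StarOrderedRing B] [Fintype n] in
theorem toCLM_mul_rect (M : CStarMatrix l m B) (N : CStarMatrix m n B) :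
    toCLM (M * N) = (toCLM N).comp (toCLM M) := by
  ext v j
  simp only [ContinuousLinearMap.comp_apply, toCLM_apply_eq_sum,
    WithCStarModule.equiv_symm_pi_apply, CStarMatrix.mul_apply, Finset.mul_sum, Finset.sum_mul,
    mul_assoc]
  exact Finset.sum_comm

theorem norm_mul_rect (M : CStarMatrix l m B) (N : CStarMatrix m n B) :
    ‖M * N‖ ≤ ‖M‖ * ‖N‖ := by
  rw [norm_def, norm_def, norm_def, toCLM_mul_rect, mul_comm]
  exact ContinuousLinearMap.opNorm_comp_le _ _

theorem norm_le_sqrt_rect (M : CStarMatrix m n B) : ‖M‖ ≤ √‖M * M.conjTranspose‖ := by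
  change ‖toCLM M‖ ≤ _
  rw [ContinuousLinearMap.opNorm_le_iff (by positivity)]
  intro v
  have key : ⟪v, toCLM (M * M.conjTranspose) v⟫_B = ⟪toCLM M v, toCLM M v⟫_B := by
    rw [toCLM_mul_rect, ContinuousLinearMap.comp_apply]
    exact inner_toCLM_conjTranspose_right
  rw [CStarModule.norm_eq_sqrt_norm_inner_self (A := B), ← key]
  have h₁ : ‖⟪v, toCLM (M * M.conjTranspose) v⟫_B‖ ≤ ‖M * M.conjTranspose‖ * ‖v‖ ^ 2 := calc
      _ ≤ ‖v‖ * ‖toCLM (M * M.conjTranspose) v‖ := CStarModule.norm_inner_le (C⋆ᵐᵒᵈ(B, m → B))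
      _ ≤ ‖v‖ * (‖toCLM (M * M.conjTranspose)‖ * ‖v‖) := by
                gcongr
                exact ContinuousLinearMap.le_opNorm _ v
      _ = ‖M * M.conjTranspose‖ * ‖v‖ ^ 2 := by rw [norm_def]; ring
  have h₂ : ‖v‖ = √(‖v‖ ^ 2) := by simp
  rw [h₂, ← Real.sqrt_mul (by positivity)]
  exact Real.sqrt_le_sqrt h₁

end Rect

section Scalar

open scoped InnerProductSpace WithCStarModule ComplexOrder
open CStarMatrix

theorem norm_sq_vec {n : Type} [Fintype n] (v : C⋆ᵐᵒᵈ(ℂ, n → ℂ)) :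
    ‖v‖ ^ 2 = ∑ i, ‖v i‖ ^ 2 := by
  rw [WithCStarModule.pi_norm_sq]
  have : ∑ i, ⟪v i, v i⟫_ℂ = ((∑ i, ‖v i‖ ^ 2 : ℝ) : ℂ) := by
    push_cast
    refine Finset.sum_congr rfl fun i _ => ?_
    rw [WithCStarModule.inner_def]
    exact Complex.mul_conj' _
  rw [this, Complex.norm_real, Real.norm_of_nonneg (by positivity)]

theorem norm_scalar_le {n : Type} [Fintype n] (Z : CStarMatrix n n ℂ) {c : ℝ} (hc : 0 ≤ c)
    (h : ∀ x y : n → ℂ, (∑ i, ∑ j, star (y i) * Z i j * x j).re ≤
      c * √(∑ i, ‖x i‖ ^ 2) * √(∑ i, ‖y i‖ ^ 2)) : ‖Z‖ ≤ c := by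
  refine (toCLM Z).opNorm_le_bound hc fun v => ?_
  set w := toCLM Z v with hw
  have hwj : ∀ j, w j = ∑ i, v i * Z i j := fun j => by
    rw [hw, toCLM_apply_eq_sum, WithCStarModule.equiv_symm_pi_apply]
  have h1 := h (fun j => star (w j)) (fun i => star (v i))
  simp only [norm_star, star_star] at h1
  rw [← norm_sq_vec, ← norm_sq_vec, Real.sqrt_sq (norm_nonneg _),
    Real.sqrt_sq (norm_nonneg _)] at h1
  have h2 : ∑ i, ∑ j, v i * Z i j * star (w j) = ((‖w‖ ^ 2 : ℝ) : ℂ) := by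
    rw [norm_sq_vec, Finset.sum_comm]
    push_cast
    refine Finset.sum_congr rfl fun j _ => ?_
    rw [← Finset.sum_mul, ← hwj]
    exact Complex.mul_conj' _
  rw [h2, Complex.ofReal_re] at h1
  rcases (norm_nonneg w).eq_or_lt with h0 | h0
  · rw [← h0]; positivity
  · nlinarith

end Scalar

theorem sum_five_comm {α σ : Type} [Fintype α] [Fintype σ] (f : α → Ω → α → Ω → σ → ℂ) :
    ∑ l, ∑ u, ∑ l', ∑ u', ∑ s, f l u l' u' s = ∑ s, ∑ u, ∑ u', ∑ l', ∑ l, f l u l' u' s :=
  calc ∑ l, ∑ u, ∑ l', ∑ u', ∑ s, f l u l' u' s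
      = ∑ p : α × Ω × α × Ω × σ, f p.1 p.2.1 p.2.2.1 p.2.2.2.1 p.2.2.2.2 := by
        simp only [Fintype.sum_prod_type]
    _ = ∑ p : σ × Ω × Ω × α × α, f p.2.2.2.2 p.2.1 p.2.2.2.1 p.2.2.1 p.1 :=
        Fintype.sum_equiv ⟨fun p => (p.2.2.2.2, p.2.1, p.2.2.2.1, p.2.2.1, p.1),
          fun p => (p.2.2.2.2, p.2.1, p.2.2.2.1, p.2.2.1, p.1), fun _ => rfl, fun _ => rfl⟩ _ _
          (fun _ => rfl)
    _ = _ := by simp only [Fintype.sum_prod_type]

open scoped ComplexOrder in
/-- complete contractivity of `z ↦ ∑ z l l' r_l⋆ r_l'` -/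
theorem norm_psi_le {α σ : Type} [Fintype α] [DecidableEq α] [Fintype σ] (r : α → B)
    (hr : ∑ l, star (r l) * r l = 1) (z : σ → Matrix α α ℂ) (a : σ → Matrix Ω Ω ℂ) {c : ℝ}
    (hc : 0 ≤ c) (h : ∀ X Y : Matrix α Ω ℂ,
      (∑ s, Matrix.trace (Yᴴ * z s * X * (a s)ᵀ)).re ≤ c * √(nsq X) * √(nsq Y)) :
    ‖∑ s, tens (∑ l, ∑ l', z s l l' • (star (r l) * r l')) (a s)‖ ≤ c := by
  let Z : CStarMatrix (α × Ω) (α × Ω) ℂ :=
    CStarMatrix.ofMatrix (Matrix.of fun p q => ∑ s, z s p.1 q.1 * a s p.2 q.2)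
  have hZa : ∀ p q, Z p q = ∑ s, z s p.1 q.1 * a s p.2 q.2 := fun _ _ => rfl
  have hZ : ‖Z‖ ≤ c := by
    refine norm_scalar_le Z hc fun x y => ?_
    have h1 := h (Matrix.of fun l u => x (l, u)) (Matrix.of fun l u => y (l, u))
    rw [Crest.Agent.R342.nsq_eq_sum, Crest.Agent.R342.nsq_eq_sum] at h1
    simp only [Matrix.of_apply] at h1
    rw [Fintype.sum_prod_type (f := fun i => ‖x i‖ ^ 2),
      Fintype.sum_prod_type (f := fun i => ‖y i‖ ^ 2)]
    convert h1 using 2
    simp only [hZa, Matrix.trace, Matrix.diag_apply, Matrix.mul_apply, Matrix.conjTranspose_apply,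
      Matrix.of_apply, Matrix.transpose_apply, Finset.sum_mul, Finset.mul_sum,
      Fintype.sum_prod_type]
    rw [sum_five_comm]
    refine Finset.sum_congr rfl fun s _ => Finset.sum_congr rfl fun u _ =>
      Finset.sum_congr rfl fun u' _ => Finset.sum_congr rfl fun l' _ =>
      Finset.sum_congr rfl fun l _ => ?_
    ring
  let φ : ℂ →⋆ₙₐ[ℂ] B := StarAlgHom.ofId ℂ B
  let Zh : CStarMatrix (α × Ω) (α × Ω) B := CStarMatrix.mapₙₐ φ Z
  have hZha : ∀ p q, Zh p q = algebraMap ℂ B (Z p q) := fun _ _ => rfl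
  have hZh : ‖Zh‖ ≤ c := (NonUnitalStarAlgHom.norm_apply_le (CStarMatrix.mapₙₐ φ) Z).trans hZ
  let L : CStarMatrix Ω (α × Ω) B :=
    CStarMatrix.ofMatrix (Matrix.of fun v p => if p.2 = v then star (r p.1) else 0)
  have hLa : ∀ v p, L v p = if p.2 = v then star (r p.1) else 0 := fun _ _ => rfl
  have hLL : L * L.conjTranspose = 1 := by
    ext u v
    simp only [CStarMatrix.mul_apply, CStarMatrix.conjTranspose_apply, hLa, Fintype.sum_prod_type,
      CStarMatrix.one_apply]
    simp only [ite_mul, zero_mul, Finset.sum_ite_eq', Finset.mem_univ, if_true]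
    split_ifs with huv
    · simpa only [star_star] using hr
    · simp only [star_zero, mul_zero, Finset.sum_const_zero]
  have hL : ‖L‖ ≤ 1 := by
    refine (norm_le_sqrt_rect L).trans ?_
    rw [hLL]
    exact Real.sqrt_le_one.2 (IsStarProjection.one _).norm_le
  have hLc : L.conjTranspose.conjTranspose = L := by
    ext u p
    simp only [CStarMatrix.conjTranspose_apply, star_star]
  have hL' : ‖L.conjTranspose‖ ≤ 1 := by
    have h1 := norm_le_sqrt_rect L.conjTranspose
    rw [hLc] at h1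
    have h2 := norm_mul_rect L.conjTranspose L
    have h3 := norm_nonneg L.conjTranspose
    have h4 : ‖L.conjTranspose‖ ^ 2 ≤ ‖L.conjTranspose * L‖ := by
      rwa [Real.le_sqrt h3 (norm_nonneg _)] at h1
    nlinarith
  have hE : ∑ s, tens (∑ l, ∑ l', z s l l' • (star (r l) * r l')) (a s)
      = L * Zh * L.conjTranspose := by
    ext u v
    have hs : (∑ s, tens (∑ l, ∑ l', z s l l' • (star (r l) * r l')) (a s)) u v
        = ∑ s, tens (∑ l, ∑ l', z s l l' • (star (r l) * r l')) (a s) u v :=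
      Matrix.sum_apply u v _ _
    rw [hs]
    simp only [CStarMatrix.mul_apply, CStarMatrix.conjTranspose_apply, hLa, Fintype.sum_prod_type,
      hZha, hZa, tens_apply]
    simp only [ite_mul, zero_mul, Finset.sum_ite_eq', Finset.mem_univ, if_true, apply_ite star,
      star_zero, star_star, mul_ite, mul_zero]
    simp only [Finset.smul_sum, smul_smul, map_sum, Finset.mul_sum, Finset.sum_mul,
      Algebra.algebraMap_eq_smul_one, mul_smul_comm, smul_mul_assoc, mul_one]
    rw [Finset.sum_comm]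
    simp only [Finset.sum_comm (γ := σ)]
    rw [Finset.sum_comm]
    refine Finset.sum_congr rfl fun l' _ => Finset.sum_congr rfl fun l _ =>
      Finset.sum_congr rfl fun s _ => ?_
    rw [mul_comm]
  rw [hE]
  calc ‖L * Zh * L.conjTranspose‖ ≤ ‖L * Zh‖ * ‖L.conjTranspose‖ := norm_mul_rect _ _
    _ ≤ (‖L‖ * ‖Zh‖) * ‖L.conjTranspose‖ := by gcongr; exact norm_mul_rect _ _
    _ ≤ (1 * c) * 1 := by gcongr
    _ = c := by ring

end Crest.Agent.R073
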