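import Crest.Agent.R073.Pack
import Crest.Agent.R073.Tens
import Crest.Agent.R073.Cuntz

/-! Row 73: levels of a finite model; finitely many levels over the Cuntz algebra. -/

set_option autoImplicit false

open scoped Matrix
open Crest.AnalysisR.CStarEmbedding

namespace Crest.Agent.R073

/-- level projections -/
def lev {Ω : Type} (P : ℕ → Matrix Ω Ω ℂ) (k : ℕ) : Matrix Ω Ω ℂ := P (k + 1) - P k

namespace Model

variable {K : ℕ} {Ω : Type} [Fintype Ω] [DecidableEq Ω] {a : Aff R →* Equiv.Perm Ω}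
  {P : ℕ → Matrix Ω Ω ℂ} {J : Matrix Ω Ω ℂ} (h : Model K Ω a P J)
include h

theorem P_mul' (j l : ℕ) (hjl : j ≤ l) : P l * P j = P j := by
  have := congrArg Matrix.conjTranspose (h.P_mul j l hjl)
  rwa [Matrix.conjTranspose_mul, h.P_star, h.P_star] at this

theorem lev_star (k : ℕ) : (lev P k)ᴴ = lev P k := by
  rw [lev, Matrix.conjTranspose_sub, h.P_star, h.P_star]

theorem lev_transpose (k : ℕ) : (lev P k)ᵀ = lev P k := by
  rw [lev, Matrix.transpose_sub, h.P_transpose, h.P_transpose]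

theorem lev_mul (k l : ℕ) : lev P k * lev P l = if k = l then lev P k else 0 := by
  simp only [lev, sub_mul, mul_sub]
  rcases lt_trichotomy k l with hkl | rfl | hkl
  · rw [if_neg hkl.ne, h.P_mul _ _ (by omega), h.P_mul _ _ (by omega), h.P_mul (k + 1) l hkl,
      h.P_mul k l hkl.le, sub_self]
  · rw [if_pos rfl, h.P_mul _ _ le_rfl, h.P_mul k (k + 1) (by omega), h.P_mul' k (k + 1) (by omega),
      h.P_mul _ _ le_rfl, sub_self, sub_zero]
  · rw [if_neg hkl.ne', h.P_mul' _ _ (by omega), h.P_mul' (l + 1) k hkl, h.P_mul' l (k + 1) (by omega),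
      h.P_mul' l k hkl.le, sub_self, sub_self, sub_self]

theorem lev_comm (g : Aff R) (k : ℕ) : Commute (pm (a g)) (lev P k) :=
  (h.P_comm g _).sub_right (h.P_comm g _)

theorem pm_lev_pi (g : Aff R) (k : ℕ) :
    (pm (a g) * lev P k)ᴴ * (pm (a g) * lev P k) * ((pm (a g) * lev P k)ᴴ * (pm (a g) * lev P k)) =
      (pm (a g) * lev P k)ᴴ * (pm (a g) * lev P k) := by
  have : (pm (a g) * lev P k)ᴴ * (pm (a g) * lev P k) = lev P k := by
    rw [Matrix.conjTranspose_mul, pm_conjTranspose, h.lev_star, mul_assoc, ← mul_assoc (pm _),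
      ← pm_mul, inv_mul_cancel, pm_one, one_mul, h.lev_mul, if_pos rfl]
  rw [this, h.lev_mul, if_pos rfl]

end Model

/-- the test operator at level `k` -/
noncomputable def TTl {O Ω : Type} [CStarAlgebra O] [Fintype Ω] [DecidableEq Ω]
    (b : Fin 4 × Fin 101 → O) (a : Aff R →* Equiv.Perm Ω) (P : ℕ → Matrix Ω Ω ℂ) (k : ℕ) :
    CStarMatrix Ω Ω O :=
  ∑ s : Fin 4 × Fin 101, tens (b s) ((1 / 101 : ℂ) • (pm (a (yy s.1 ^ (s.2 : ℕ))) * lev P k))

theorem fin_levels {O : Type} [CStarAlgebra O] [PartialOrder O] [StarOrderedRing O] {s₁ s₂ : O}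
    (hO : IsCuntzTwo O s₁ s₂) (b : Fin 4 × Fin 101 → O) :
    ∃ K : ℕ, 2 ≤ K ∧ ((∀ s, ‖b s‖ ≤ 1001 / 1000) → ∀ (Ω : Type) [Fintype Ω] [DecidableEq Ω]
      (a : Aff R →* Equiv.Perm Ω) (P : ℕ → Matrix Ω Ω ℂ) (J : Matrix Ω Ω ℂ), Model K Ω a P J →
      ∃ k < K, ‖TTl b a P k‖ ≤ 4 - 2 / 1000) := by
  by_cases hb : ∀ s, ‖b s‖ ≤ 1001 / 1000
  swap
  · exact ⟨2, le_rfl, fun h => absurd h hb⟩
  obtain ⟨α, _, _, r, z, hr, hz, happ⟩ := cuntz_approx hO b hb (δ := 1 / 1000) (by norm_num)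
  refine ⟨2 ^ 20 * Fintype.card α + 2, by omega, fun _ Ω _ _ a P J h => ?_⟩
  obtain ⟨k, hk⟩ := pack kaz_yy a (m := 2 ^ 20 * Fintype.card α + 2) (fun k => lev P k)
    (fun k => h.lev_star k) (fun k => h.lev_transpose k)
    (fun k l => by rw [h.lev_mul]; simp only [Fin.ext_iff]) (fun g k => h.lev_comm g k)
    (fun Y hY k => (h.P_bicomm Y hY _).sub_left (h.P_bicomm Y hY _)) z hz (by omega)
  refine ⟨k, k.2, ?_⟩
  have h1 := norm_psi_le r hr z
    (fun s : Fin 4 × Fin 101 => (1 / 101 : ℂ) • (pm (a (yy s.1 ^ (s.2 : ℕ))) * lev P k))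
    (c := 4 - 6 / 1000) (by norm_num) hk
  have h2 : ‖TTl b a P k - ∑ s : Fin 4 × Fin 101,
      tens (∑ l, ∑ l', z s l l' • (star (r l) * r l'))
        ((1 / 101 : ℂ) • (pm (a (yy s.1 ^ (s.2 : ℕ))) * lev P k))‖ ≤ 4 / 1000 := by
    rw [TTl, ← Finset.sum_sub_distrib]
    refine (norm_sum_le _ _).trans ?_
    refine (Finset.sum_le_sum (g := fun _ => (1 / 101 : ℝ) * (1 / 1000)) fun s _ => ?_).trans ?_
    · rw [← tens_sub_left, tens_smul_right, norm_smul]
      refine mul_le_mul (by simp) ((norm_tens_le _ (h.pm_lev_pi _ _)).trans (happ s))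
        (norm_nonneg _) (by norm_num)
    · simp only [Finset.sum_const, Finset.card_univ, Fintype.card_prod, Fintype.card_fin,
        nsmul_eq_mul]
      norm_num
  have h3 := norm_le_norm_add_norm_sub' (TTl b a P k) (∑ s : Fin 4 × Fin 101,
      tens (∑ l, ∑ l', z s l l' • (star (r l) * r l'))
        ((1 / 101 : ℂ) • (pm (a (yy s.1 ^ (s.2 : ℕ))) * lev P k)))
  linarith

end Crest.Agent.R073
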