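import Crest.Agent.R073.Gap
import Crest.Agent.R073.Group
import Crest.Agent.R342.FC

/-! Row 73: only boundedly many levels can be almost contained in a matrix tuple. -/

set_option autoImplicit false

open scoped Matrix ComplexOrder
open Crest.Agent.R342 (nsq)

namespace Crest.Agent.R073

open Crest.Agent.R342 Matrix

section aux
variable {a b : Type} [Fintype a] [Fintype b]

lemma pk_tr_le (K L : Matrix a b ℂ) {θ : ℝ} (hθ : 0 < θ) :
    2 * (trace (Kᴴ * L)).re ≤ θ ^ 2 * nsq K + (θ⁻¹) ^ 2 * nsq L := by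
  classical
  have := two_re_trace_le (θ • K) (θ⁻¹ • L)
  rw [nsq_smul, nsq_smul, conjTranspose_smul, Matrix.smul_mul, Matrix.mul_smul, smul_smul,
    star_trivial, mul_inv_cancel₀ hθ.ne', one_smul] at this
  exact this

lemma pk_nsq_eq_zero {K : Matrix a b ℂ} (h : nsq K = 0) : K = 0 := by
  rw [nsq_eq_sum, Finset.sum_eq_zero_iff_of_nonneg fun _ _ => by positivity] at h
  ext i j
  have := h i (Finset.mem_univ _)
  rw [Finset.sum_eq_zero_iff_of_nonneg fun _ _ => by positivity] at this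
  simpa using this j (Finset.mem_univ _)

lemma pk_polar [DecidableEq a] [DecidableEq b] (K : Matrix a b ℂ) :
    ∃ (W : Matrix a b ℂ) (P : Matrix b b ℂ), P.PosSemidef ∧ Contr W ∧ K = W * P ∧
      Pᴴ * P = Kᴴ * K ∧ Wᴴ * K = P := by
  obtain ⟨W, P, hP, hW, hK, hn⟩ := exists_polar K
  obtain ⟨B, hB⟩ := psd_factor hW
  have e : (B * P)ᴴ * (B * P) = Pᴴ * P - Kᴴ * K := by
    rw [hK, conjTranspose_mul, conjTranspose_mul, Matrix.mul_assoc, ← Matrix.mul_assoc Bᴴ, ← hB]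
    simp only [Matrix.sub_mul, Matrix.mul_sub, Matrix.one_mul, Matrix.mul_assoc]
  have h0 : B * P = 0 := by
    apply pk_nsq_eq_zero
    rw [nsq, e, trace_sub, Complex.sub_re]
    exact sub_eq_zero.2 hn
  refine ⟨W, P, hP, hW, hK, ?_, ?_⟩
  · rw [h0] at e
    exact (sub_eq_zero.1 (e.symm.trans (by simp)))
  · have : (1 - Wᴴ * W) * P = 0 := by rw [hB, Matrix.mul_assoc, h0, Matrix.mul_zero]
    rw [Matrix.sub_mul, Matrix.one_mul, sub_eq_zero] at this
    rw [hK, ← Matrix.mul_assoc, ← this]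

lemma pk_nsq_contr [DecidableEq a] [DecidableEq b] {W : Matrix a b ℂ} (hW : Contr W) :
    nsq W ≤ Fintype.card a := by
  have := hW.nsq_mul_le' (1 : Matrix a a ℂ)
  rw [Matrix.one_mul] at this
  simpa [nsq] using this

lemma pk_nsq_le_trace [DecidableEq a] {A : Matrix a a ℂ} (hA : A.PosSemidef) (h : nsq A ≤ 1) :
    nsq A ≤ (trace A).re := by
  have h1 := nsq_fc (fun t => t) A
  rw [fc_id hA.1] at h1
  have h2 : (trace A).re = ∑ i, ev A i := by
    conv_lhs => rw [← fc_id hA.1, fc, trace_mul_comm, ← Matrix.mul_assoc, eU_mul', Matrix.one_mul]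
    simp
  rw [h2, h1]
  refine Finset.sum_le_sum fun i _ => ?_
  have h3 := Finset.single_le_sum (f := fun i => ev A i ^ 2) (fun _ _ => sq_nonneg _)
    (Finset.mem_univ i)
  have h4 := ev_nonneg hA i
  have h5 : ev A i ≤ 1 := by nlinarith
  nlinarith

lemma pk_nsq_congr {c : Type} [Fintype c] {K : Matrix a b ℂ} {P : Matrix b b ℂ}
    (h : Pᴴ * P = Kᴴ * K) (M : Matrix b c ℂ) : nsq (P * M) = nsq (K * M) := by
  unfold nsq
  rw [conjTranspose_mul, conjTranspose_mul, Matrix.mul_assoc, Matrix.mul_assoc,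
    ← Matrix.mul_assoc Pᴴ, ← Matrix.mul_assoc Kᴴ, h]

lemma pk_stepA [DecidableEq a] [DecidableEq b] {W W' : Matrix a b ℂ} {P P' : Matrix b b ℂ}
    (hP : P.PosSemidef) (hP' : P'.PosSemidef) (hW : Contr W) (hW' : Contr W')
    {z : Matrix a a ℂ} {c : ℝ} (hc : 0 < c)
    (hz : ((((c ^ 2 : ℝ)) : ℂ) • (1 : Matrix a a ℂ) - zᴴ * z).PosSemidef) (u : Matrix b b ℂ) :
    2 * (trace ((W' * P')ᴴ * z * (W * P) * u)).re ≤
      (nsq P' + c ^ 4 * nsq P) / 2 + (trace (P'ᴴ * (uᴴ * P * u))).re := by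
  have hz' : Contr (c⁻¹ • z) := by
    have := hz.smul (show (0 : ℝ) ≤ (c⁻¹) ^ 2 by positivity)
    unfold Contr
    convert this using 1
    rw [smul_sub, conjTranspose_smul, Matrix.smul_mul, Matrix.mul_smul, smul_smul, star_trivial,
      Complex.coe_smul, smul_smul, ← sq, ← mul_pow, inv_mul_cancel₀ hc.ne', one_pow, one_smul]
  set C := W'ᴴ * z * W with hC
  have hC' : Contr (c⁻¹ • C) := by
    have := (hW'.conjTranspose.mul hz').mul hW
    rwa [Matrix.mul_smul, Matrix.smul_mul] at this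
  have h1 : nsq (C * P * Cᴴ) ≤ c ^ 4 * nsq P := by
    have h2 := (hC'.conjTranspose.nsq_mul_le' ((c⁻¹ • C) * P)).trans (hC'.nsq_mul_le P)
    rw [conjTranspose_smul, star_trivial, Matrix.smul_mul, Matrix.smul_mul, Matrix.mul_smul,
      smul_smul, nsq_smul] at h2
    have h3 : c ^ 4 * ((c⁻¹ * c⁻¹) ^ 2 * nsq (C * P * Cᴴ)) = nsq (C * P * Cᴴ) := by field_simp
    rw [← h3]
    gcongr
  have h2 := two_re_trace_le P' (C * P * Cᴴ)
  obtain ⟨S, hS⟩ := psd_factor hP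
  obtain ⟨S', hS'⟩ := psd_factor hP'
  have h3 := two_re_trace_le (S * Cᴴ * S'ᴴ) (S * u * S'ᴴ)
  have e1 : trace ((S * Cᴴ * S'ᴴ)ᴴ * (S * u * S'ᴴ)) = trace ((W' * P')ᴴ * z * (W * P) * u) := by
    rw [conjTranspose_mul W', hP'.1.eq, ← Matrix.mul_assoc _ (S * u), trace_mul_comm]
    simp only [conjTranspose_mul, conjTranspose_conjTranspose, hC, hS, hS', Matrix.mul_assoc]
  have e2 : nsq (S * Cᴴ * S'ᴴ) = (trace (P'ᴴ * (C * P * Cᴴ))).re := by
    rw [nsq, hP'.1.eq, ← Matrix.mul_assoc _ (S * Cᴴ), trace_mul_comm]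
    simp only [conjTranspose_mul, conjTranspose_conjTranspose, hS, hS', Matrix.mul_assoc]
  have e3 : nsq (S * u * S'ᴴ) = (trace (P'ᴴ * (uᴴ * P * u))).re := by
    rw [nsq, hP'.1.eq, ← Matrix.mul_assoc _ (S * u), trace_mul_comm]
    simp only [conjTranspose_mul, conjTranspose_conjTranspose, hS, hS', Matrix.mul_assoc]
  rw [e1, e2, e3] at h3
  linarith

/-- a matrix as a column vector -/
def pk_vec (M : Matrix a b ℂ) : Matrix (a × b) Unit ℂ := Matrix.of fun p _ => M p.1 p.2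

lemma pk_vec_trace (K L : Matrix a b ℂ) : trace ((pk_vec K)ᴴ * pk_vec L) = trace (Kᴴ * L) := by
  simp only [trace, diag_apply, mul_apply, conjTranspose_apply, pk_vec, of_apply,
    Fintype.sum_prod_type, Finset.univ_unique, Finset.sum_singleton]
  exact Finset.sum_comm

lemma pk_vec_nsq (K : Matrix a b ℂ) : nsq (pk_vec K) = nsq K := by
  rw [nsq, nsq, pk_vec_trace]

omit [Fintype a] [Fintype b] in
lemma pk_vec_surj (v : Matrix (a × b) Unit ℂ) : ∃ M, pk_vec M = v :=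
  ⟨Matrix.of fun i j => v (i, j) (), rfl⟩

omit [Fintype a] [Fintype b] in
lemma pk_vec_inj {K L : Matrix a b ℂ} (h : pk_vec K = pk_vec L) : K = L := by
  ext i j; exact congrFun (congrFun h (i, j)) ()

lemma pk_pm_vec [DecidableEq a] (σ : Equiv.Perm a) (M : Matrix a a ℂ) :
    pm (Equiv.prodCongr σ σ) * pk_vec M = pk_vec (pm σ * M * pm σ⁻¹) := by
  ext ⟨i, j⟩ u
  have h1 : ∀ (τ : Equiv.Perm a) (i v : a), (i = τ v) ↔ (v = τ⁻¹ i) := by
    intro τ i v
    constructor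
    · rintro rfl; simp
    · rintro rfl; simp
  have l : (pm (Equiv.prodCongr σ σ) * pk_vec M) (i, j) u = M (σ⁻¹ i) (σ⁻¹ j) := by
    rw [mul_apply, Finset.sum_eq_single (σ⁻¹ i, σ⁻¹ j)]
    · simp [pm, pk_vec]
    · rintro ⟨x, y⟩ _ h
      have : ¬ ((i, j) = (Equiv.prodCongr σ σ) (x, y)) := by
        intro h'
        apply h
        obtain ⟨h2, h3⟩ := Prod.ext_iff.1 h'
        exact Prod.ext ((h1 σ i x).1 h2) ((h1 σ j y).1 h3)
      simp only [pm, of_apply, this, if_false, zero_mul]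
    · simp
  rw [l]
  simp only [pk_vec, of_apply, mul_apply, pm, h1 σ i, mul_ite, ite_mul, mul_one, mul_zero, one_mul,
    zero_mul, Finset.sum_ite_eq', Finset.mem_univ, if_true]

open scoped Matrix.Norms.L2Operator in
lemma pk_nsq_op [DecidableEq a] (A : Matrix a a ℂ) (v : Matrix a Unit ℂ) :
    nsq (A * v) ≤ ‖A‖ ^ 2 * nsq v := by
  have key : ∀ v : Matrix a Unit ℂ,
      nsq v = ‖(WithLp.toLp 2 (fun i => v i ()) : EuclideanSpace ℂ a)‖ ^ 2 := by
    intro v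
    rw [EuclideanSpace.norm_sq_eq, nsq_eq_sum]
    simp
  rw [key, key, ← mul_pow]
  exact pow_le_pow_left₀ (norm_nonneg _) (A.l2_opNorm_mulVec (WithLp.toLp 2 fun i => v i ())) 2

end aux

open scoped Matrix.Norms.L2Operator in
lemma pk_stepB {Λ Ω : Type} [Group Λ] [Fintype Ω] [DecidableEq Ω]
    {y : Fin 4 → Λ} (hy : Kaz y) (a : Λ →* Equiv.Perm Ω) (P P' : Matrix Ω Ω ℂ) :
    ∃ Q : Matrix Ω Ω ℂ, (∀ i, Commute (pm (a (y i))) Q) ∧ nsq Q = (trace (Qᴴ * P)).re ∧
      ∑ s : Fin 4 × Fin 101, (1 / 101 : ℝ) * (trace (P'ᴴ *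
        (pm (a (y s.1 ^ (s.2 : ℕ))) * P * pm (a (y s.1 ^ (s.2 : ℕ)))⁻¹))).re ≤
        4 * (trace (P'ᴴ * Q)).re + 15 / 8 * (nsq P' + nsq P) := by
  let ρ : Λ →* Matrix (Ω × Ω) (Ω × Ω) ℂ :=
    { toFun := fun g => pm (Equiv.prodCongr (a g) (a g))
      map_one' := by rw [map_one, ← pm_one]; rfl
      map_mul' := fun g h => by rw [map_mul, ← pm_mul]; rfl }
  have hρ : ∀ g, star (ρ g) = ρ g⁻¹ := by
    intro g
    show (pm _)ᴴ = pm _
    rw [pm_conjTranspose, map_inv]; rfl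
  obtain ⟨q, hq1, hq2, hq3, hq4, -⟩ := gap ρ hρ hy
  obtain ⟨Q, hQ⟩ := pk_vec_surj (q * pk_vec P)
  refine ⟨Q, fun i => ?_, ?_, ?_⟩
  · have : pk_vec (pm (a (y i)) * Q * pm (a (y i))⁻¹) = pk_vec Q := by
      rw [← pk_pm_vec, hQ, ← Matrix.mul_assoc]
      exact congrArg (· * pk_vec P) (hq3 i)
    have h2 := congrArg (· * pm (a (y i))) (pk_vec_inj this)
    simp only [Matrix.mul_assoc, ← pm_mul, inv_mul_cancel, pm_one, Matrix.mul_one] at h2
    exact h2
  · rw [nsq, ← pk_vec_trace Q Q, ← pk_vec_trace Q P, hQ, conjTranspose_mul, Matrix.mul_assoc,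
      Matrix.mul_assoc, ← Matrix.mul_assoc qᴴ, show qᴴ = q from hq1, hq2]
  · have hpow : ∀ i (j : ℕ), ρ (y i ^ j) * q = q := by
      intro i j
      induction j with
      | zero => simp
      | succ j ih => rw [pow_succ, map_mul, mul_assoc, hq3, ih]
    have h4 : avS ρ y * q = (4 : ℝ) • q := by
      simp only [avS, Finset.sum_mul, smul_mul_assoc, hpow, Finset.sum_const, Finset.card_univ,
        Fintype.card_fin]
      rw [← Nat.cast_smul_eq_nsmul ℂ, ← Nat.cast_smul_eq_nsmul ℂ, smul_smul, smul_smul,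
        ← Complex.coe_smul]
      norm_num
    have e1 : ∑ s : Fin 4 × Fin 101, (1 / 101 : ℝ) * (trace (P'ᴴ *
        (pm (a (y s.1 ^ (s.2 : ℕ))) * P * pm (a (y s.1 ^ (s.2 : ℕ)))⁻¹))).re
        = (trace ((pk_vec P')ᴴ * (avS ρ y * pk_vec P))).re := by
      rw [Fintype.sum_prod_type]
      simp only [avS, Matrix.sum_mul, Matrix.mul_sum, trace_sum, Complex.re_sum, Matrix.smul_mul,
        Matrix.mul_smul, trace_smul]
      refine Finset.sum_congr rfl fun i _ => Finset.sum_congr rfl fun j _ => ?_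
      rw [← pk_vec_trace, ← pk_pm_vec, show (1 / 101 : ℂ) = ((1 / 101 : ℝ) : ℂ) by push_cast; rfl,
        smul_eq_mul, Complex.re_ofReal_mul]
      rfl
    have e2 : avS ρ y * pk_vec P = (4 : ℝ) • pk_vec Q + (avS ρ y * (1 - q)) * pk_vec P := by
      rw [hQ, ← Matrix.smul_mul, ← h4, ← Matrix.add_mul, ← mul_add, add_sub_cancel, mul_one]
    have h5 := pk_tr_le (pk_vec P') ((avS ρ y * (1 - q)) * pk_vec P) (θ := √(15 / 4))
      (by positivity)
    have h6 := pk_nsq_op (avS ρ y * (1 - q)) (pk_vec P)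
    have h7 : ‖avS ρ y * (1 - q)‖ ^ 2 ≤ (15 / 4) ^ 2 := pow_le_pow_left₀ (norm_nonneg _) hq4 2
    rw [inv_pow, Real.sq_sqrt (by norm_num), pk_vec_nsq] at h5
    rw [pk_vec_nsq] at h6
    have h8 := mul_le_mul_of_nonneg_right h7 (nsq_nonneg P)
    rw [e1, e2, Matrix.mul_add, trace_add, Complex.add_re, Matrix.mul_smul, trace_smul,
      pk_vec_trace, Complex.smul_re, smul_eq_mul]
    linarith

section levels
variable {Ω : Type} [Fintype Ω] [DecidableEq Ω] {m : ℕ} {e : Fin m → Matrix Ω Ω ℂ}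

omit [DecidableEq Ω] in
lemma pk_sum_mul (he_mul : ∀ k l, e k * e l = if k = l then e k else 0) (l : Fin m) :
    (∑ k, e k) * e l = e l := by
  simp only [Finset.sum_mul, he_mul, Finset.sum_ite_eq', Finset.mem_univ, if_true]

omit [DecidableEq Ω] in
lemma pk_mul_sum (he_mul : ∀ k l, e k * e l = if k = l then e k else 0) (l : Fin m) :
    e l * (∑ k, e k) = e l := by
  simp only [Finset.mul_sum, he_mul, Finset.sum_ite_eq, Finset.mem_univ, if_true]

omit [DecidableEq Ω] in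
lemma pk_nsq_proj {α : Type} [Fintype α] {f : Matrix Ω Ω ℂ} (h1 : fᴴ = f) (h2 : f * f = f)
    (M : Matrix α Ω ℂ) : nsq (M * f) = (trace (Mᴴ * M * f)).re := by
  rw [nsq, conjTranspose_mul, h1, Matrix.mul_assoc, trace_mul_comm, ← Matrix.mul_assoc Mᴴ,
    Matrix.mul_assoc _ f, h2]

lemma pk_contr_proj {f : Matrix Ω Ω ℂ} (h1 : fᴴ = f) (h2 : f * f = f) : Contr f := by
  have : (1 - f)ᴴ * (1 - f) = 1 - fᴴ * f := by
    simp [h1, h2, Matrix.sub_mul, Matrix.mul_sub]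
  unfold Contr
  rw [← this]
  exact posSemidef_conjTranspose_mul_self _

omit [DecidableEq Ω] in
lemma pk_nsq_levels {α : Type} [Fintype α] (he_star : ∀ k, (e k)ᴴ = e k)
    (he_mul : ∀ k l, e k * e l = if k = l then e k else 0) (M : Matrix α Ω ℂ) :
    nsq (M * ∑ k, e k) = ∑ k, nsq (M * e k) := by
  have h1 : (∑ k, e k)ᴴ = ∑ k, e k := by simp [conjTranspose_sum, he_star]
  have h2 : (∑ k, e k) * (∑ k, e k) = ∑ k, e k := by
    rw [Finset.mul_sum]; exact Finset.sum_congr rfl fun l _ => pk_sum_mul he_mul l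
  rw [pk_nsq_proj h1 h2, Matrix.mul_sum, trace_sum, Complex.re_sum]
  exact Finset.sum_congr rfl fun k _ => (pk_nsq_proj (he_star k) (by simp [he_mul]) M).symm

lemma pk_nsq_levels_le {α : Type} [Fintype α] (he_star : ∀ k, (e k)ᴴ = e k)
    (he_mul : ∀ k l, e k * e l = if k = l then e k else 0) (M : Matrix α Ω ℂ) :
    ∑ k, nsq (M * e k) ≤ nsq M := by
  rw [← pk_nsq_levels he_star he_mul]
  refine (pk_contr_proj (by simp [conjTranspose_sum, he_star]) ?_).nsq_mul_le' M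
  rw [Finset.mul_sum]; exact Finset.sum_congr rfl fun l _ => pk_sum_mul he_mul l

lemma pk_stepC (he_star : ∀ k, (e k)ᴴ = e k)
    (he_mul : ∀ k l, e k * e l = if k = l then e k else 0) {P Q : Matrix Ω Ω ℂ}
    (hP : P.PosSemidef) (hPe : P * ∑ k, e k = P) (hPk : ∀ k, nsq (P * e k) ≤ 1)
    (hQ : ∀ k, Commute (e k) Q) (hn : nsq Q = (trace (Qᴴ * P)).re) : nsq Q ≤ (trace P).re := by
  have hee : ∀ k, e k * e k = e k := fun k => by simp [he_mul]
  have h1 : (trace (Qᴴ * P)).re = ∑ k, (trace ((Q * e k)ᴴ * (e k * P * e k))).re := by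
    conv_lhs => rw [← hPe]
    rw [← Matrix.mul_assoc, Matrix.mul_sum, trace_sum, Complex.re_sum]
    refine Finset.sum_congr rfl fun k _ => ?_
    have h2 : (Q * e k)ᴴ = Qᴴ * e k := by
      rw [← (hQ k).eq, conjTranspose_mul, he_star]
    have h3 : e k * Qᴴ = Qᴴ * e k := by rw [← h2, conjTranspose_mul, he_star]
    rw [h2]
    congr 1
    calc trace (Qᴴ * P * e k) = trace (Qᴴ * P * (e k * e k)) := by rw [hee]
      _ = trace (e k * Qᴴ * P * e k) := by
          rw [← Matrix.mul_assoc, trace_mul_comm]; simp only [Matrix.mul_assoc]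
      _ = trace (Qᴴ * (e k * e k) * P * e k) := by rw [h3, hee]
      _ = _ := by simp only [Matrix.mul_assoc]
  have h2 : (trace P).re = ∑ k, (trace (e k * P * e k)).re := by
    conv_lhs => rw [← hPe]
    rw [Matrix.mul_sum, trace_sum, Complex.re_sum]
    refine Finset.sum_congr rfl fun k _ => ?_
    rw [trace_mul_comm (e k * P), ← Matrix.mul_assoc, hee, trace_mul_comm]
  have h3 : ∀ k, nsq (e k * P * e k) ≤ (trace (e k * P * e k)).re := by
    intro k
    refine pk_nsq_le_trace ?_ ?_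
    · have := hP.mul_mul_conjTranspose_same (e k)
      rwa [he_star] at this
    · rw [Matrix.mul_assoc]
      exact ((pk_contr_proj (he_star k) (hee k)).nsq_mul_le _).trans (hPk k)
  have h4 := pk_nsq_levels_le he_star he_mul Q
  have h5 : 2 * ∑ k, (trace ((Q * e k)ᴴ * (e k * P * e k))).re ≤
      ∑ k, nsq (Q * e k) + ∑ k, (trace (e k * P * e k)).re := by
    rw [Finset.mul_sum, ← Finset.sum_add_distrib]
    refine Finset.sum_le_sum fun k _ => (two_re_trace_le _ _).trans ?_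
    linarith [h3 k]
  linarith

end levels

lemma pk_normalize {α Ω : Type} [Fintype α] [Fintype Ω] (T : Matrix α Ω ℂ → Matrix α Ω ℂ → ℝ)
    (hT : ∀ (s t : ℝ) X Y, T (s • X) (t • Y) = s * t * T X Y) {c : ℝ}
    {X Y : Matrix α Ω ℂ} (h : c * √(nsq X) * √(nsq Y) < T X Y) :
    ∃ X' Y' : Matrix α Ω ℂ, nsq X' = 1 ∧ nsq Y' = 1 ∧ c < T X' Y' := by
  have hX : nsq X ≠ 0 := by
    intro h0
    have := hT 0 1 X Y
    rw [h0, pk_nsq_eq_zero h0] at h
    rw [zero_smul, one_smul] at this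
    simp [this] at h
  have hY : nsq Y ≠ 0 := by
    intro h0
    have := hT 1 0 X Y
    rw [h0, pk_nsq_eq_zero h0] at h
    rw [zero_smul, one_smul] at this
    simp [this] at h
  have hX' : 0 < √(nsq X) := Real.sqrt_pos.2 (lt_of_le_of_ne (nsq_nonneg _) hX.symm)
  have hY' : 0 < √(nsq Y) := Real.sqrt_pos.2 (lt_of_le_of_ne (nsq_nonneg _) hY.symm)
  refine ⟨(√(nsq X))⁻¹ • X, (√(nsq Y))⁻¹ • Y, ?_, ?_, ?_⟩
  · rw [nsq_smul, inv_pow, Real.sq_sqrt (nsq_nonneg _), inv_mul_cancel₀ hX]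
  · rw [nsq_smul, inv_pow, Real.sq_sqrt (nsq_nonneg _), inv_mul_cancel₀ hY]
  · rw [hT, ← mul_inv, inv_mul_eq_div, lt_div_iff₀ (by positivity), ← mul_assoc]
    exact h

theorem pack {Λ Ω α : Type} [Group Λ] [Fintype Ω] [DecidableEq Ω] [Fintype α] [DecidableEq α]
    {y : Fin 4 → Λ} (hy : Kaz y) (a : Λ →* Equiv.Perm Ω) {m : ℕ} (e : Fin m → Matrix Ω Ω ℂ)
    (he_star : ∀ k, (e k)ᴴ = e k) (he_t : ∀ k, (e k)ᵀ = e k)
    (he_mul : ∀ k l, e k * e l = if k = l then e k else 0)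
    (he_comm : ∀ g k, Commute (pm (a g)) (e k))
    (he_bi : ∀ Y : Matrix Ω Ω ℂ, (∀ i, Commute (pm (a (y i))) Y) → ∀ k, Commute (e k) Y)
    (z : Fin 4 × Fin 101 → Matrix α α ℂ)
    (hz : ∀ s, ((((1001 / 1000 : ℝ) ^ 2 : ℝ) : ℂ) • (1 : Matrix α α ℂ) - (z s)ᴴ * z s).PosSemidef)
    (hm : 2 ^ 20 * Fintype.card α < m) :
    ∃ k, ∀ X Y : Matrix α Ω ℂ,
      (∑ s : Fin 4 × Fin 101, Matrix.trace (Yᴴ * z s * X *
        ((1 / 101 : ℂ) • (pm (a (y s.1 ^ (s.2 : ℕ))) * e k))ᵀ)).re ≤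
        (4 - 6 / 1000) * √(nsq X) * √(nsq Y) := by
  by_contra hcon
  push Not at hcon
  let u : Fin 4 × Fin 101 → Matrix Ω Ω ℂ := fun s => pm (a (y s.1 ^ (s.2 : ℕ)))⁻¹
  let T : Fin m → Matrix α Ω ℂ → Matrix α Ω ℂ → ℝ := fun k X Y =>
    ∑ s : Fin 4 × Fin 101, (1 / 101 : ℝ) * (trace (Yᴴ * z s * X * (e k * u s))).re
  have hTe : ∀ k X Y, (∑ s : Fin 4 × Fin 101, Matrix.trace (Yᴴ * z s * X *
        ((1 / 101 : ℂ) • (pm (a (y s.1 ^ (s.2 : ℕ))) * e k))ᵀ)).re = T k X Y := by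
    intro k X Y
    rw [Complex.re_sum]
    refine Finset.sum_congr rfl fun s _ => ?_
    rw [transpose_smul, transpose_mul, he_t, pm_transpose, Matrix.mul_smul, trace_smul,
      show (1 / 101 : ℂ) = ((1 / 101 : ℝ) : ℂ) by push_cast; rfl, smul_eq_mul,
      Complex.re_ofReal_mul]
  simp only [hTe] at hcon
  have hnorm : ∀ k, ∃ X' Y' : Matrix α Ω ℂ, nsq X' = 1 ∧ nsq Y' = 1 ∧
      4 - 6 / 1000 < T k X' Y' := by
    intro k
    obtain ⟨X, Y, h⟩ := hcon k
    refine pk_normalize (T k) (fun s t X Y => ?_) h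
    simp only [T, Finset.mul_sum, conjTranspose_smul, Matrix.smul_mul, Matrix.mul_smul,
      trace_smul, star_trivial, Complex.smul_re, smul_eq_mul]
    exact Finset.sum_congr rfl fun _ _ => by ring
  choose Xk Yk hX hY hT using hnorm
  have hee : ∀ k, e k * e k = e k := fun k => by simp [he_mul]
  have hlev : ∀ (Z : Fin m → Matrix α Ω ℂ), (∀ k, nsq (Z k) = 1) →
      (∑ k, Z k * e k) * (∑ k, e k) = ∑ k, Z k * e k ∧
      (∀ l, nsq ((∑ k, Z k * e k) * e l) ≤ 1) ∧ nsq (∑ k, Z k * e k) ≤ m := by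
    intro Z hZ
    have h1 : (∑ k, Z k * e k) * (∑ k, e k) = ∑ k, Z k * e k := by
      rw [Matrix.sum_mul]
      exact Finset.sum_congr rfl fun k _ => by rw [Matrix.mul_assoc, pk_mul_sum he_mul]
    have h2 : ∀ l, nsq ((∑ k, Z k * e k) * e l) ≤ 1 := by
      intro l
      have : (∑ k, Z k * e k) * e l = Z l * e l := by
        rw [Matrix.sum_mul, Finset.sum_eq_single l]
        · rw [Matrix.mul_assoc, hee]
        · intro k _ hk; rw [Matrix.mul_assoc, he_mul, if_neg hk, Matrix.mul_zero]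
        · simp
      rw [this, ← hZ l]
      exact (pk_contr_proj (he_star l) (hee l)).nsq_mul_le' _
    refine ⟨h1, h2, ?_⟩
    rw [← h1, pk_nsq_levels he_star he_mul]
    refine (Finset.sum_le_card_nsmul _ _ 1 fun l _ => h2 l).trans (by simp)
  obtain ⟨hX1, hX2, hX3⟩ := hlev Xk hX
  obtain ⟨-, -, hY3⟩ := hlev Yk hY
  have hV : ∑ s : Fin 4 × Fin 101, (1 / 101 : ℝ) *
      (trace ((∑ k, Yk k * e k)ᴴ * z s * (∑ k, Xk k * e k) * u s)).re = ∑ k, T k (Xk k) (Yk k) := by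
    simp only [T]
    rw [Finset.sum_comm]
    refine Finset.sum_congr rfl fun s _ => ?_
    rw [← Finset.mul_sum, ← Complex.re_sum]
    congr 2
    rw [Matrix.mul_sum, Matrix.sum_mul, trace_sum]
    refine Finset.sum_congr rfl fun k _ => ?_
    have hc : ∀ l, u s * e l = e l * u s := by
      intro l
      simp only [u, ← map_inv]
      exact (he_comm _ l).eq
    rw [conjTranspose_sum, Matrix.sum_mul, Matrix.sum_mul, Matrix.sum_mul, trace_sum]
    have : ∀ l, trace ((Yk l * e l)ᴴ * z s * (Xk k * e k) * u s)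
        = trace ((Yk l)ᴴ * z s * Xk k * (e k * e l * u s)) := by
      intro l
      rw [conjTranspose_mul, he_star, Matrix.mul_assoc (e k), ← hc]
      simp only [Matrix.mul_assoc]
      rw [trace_mul_comm]
      simp only [Matrix.mul_assoc]
    rw [Finset.sum_eq_single k]
    · rw [this, hee]
    · intro l _ hl
      rw [this, he_mul, if_neg hl.symm]; simp
    · simp
  have hm0 : 0 < m := by omega
  have hV2 : (4 - 6 / 1000) * (m : ℝ) ≤ ∑ k, T k (Xk k) (Yk k) := by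
    have := Finset.card_nsmul_le_sum Finset.univ (fun k => T k (Xk k) (Yk k)) (4 - 6 / 1000)
      fun k _ => (hT k).le
    rw [Finset.card_univ, Fintype.card_fin, nsmul_eq_mul, mul_comm] at this
    exact this
  set X := ∑ k, Xk k * e k
  set Y := ∑ k, Yk k * e k
  obtain ⟨W, P, hP, hW, hXW, hPP, hWX⟩ := pk_polar X
  obtain ⟨W', P', hP', hW', hYW, hPP', -⟩ := pk_polar Y
  have hnP : nsq P ≤ m := by rw [nsq, hPP]; exact hX3
  have hnP' : nsq P' ≤ m := by rw [nsq, hPP']; exact hY3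
  obtain ⟨Q, hQ1, hQ2, hQ3⟩ := pk_stepB hy a P P'
  have hA : 2 * ∑ s : Fin 4 × Fin 101, (1 / 101 : ℝ) * (trace (Yᴴ * z s * X * u s)).re ≤
      ∑ s : Fin 4 × Fin 101, ((1 / 101 : ℝ) * ((nsq P' + (1001 / 1000) ^ 4 * nsq P) / 2) +
        (1 / 101 : ℝ) * (trace (P'ᴴ *
        (pm (a (y s.1 ^ (s.2 : ℕ))) * P * pm (a (y s.1 ^ (s.2 : ℕ)))⁻¹))).re) := by
    rw [Finset.mul_sum]
    refine Finset.sum_le_sum fun s _ => ?_
    have := pk_stepA hP hP' hW hW' (by norm_num) (hz s) (u s)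
    rw [← hXW, ← hYW] at this
    simp only [u, pm_conjTranspose, inv_inv] at this ⊢
    linarith
  rw [Finset.sum_add_distrib, Finset.sum_const, Finset.card_univ, Fintype.card_prod,
    Fintype.card_fin, Fintype.card_fin, nsmul_eq_mul, hV] at hA
  have hC := pk_stepC he_star he_mul hP (Q := Q) (by
    have : nsq (P * (1 - ∑ k, e k)) = 0 := by
      rw [pk_nsq_congr hPP, Matrix.mul_sub, Matrix.mul_one, hX1, sub_self, nsq_zero]
    have := pk_nsq_eq_zero this
    rw [Matrix.mul_sub, Matrix.mul_one, sub_eq_zero] at this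
    exact this.symm) (fun k => by rw [pk_nsq_congr hPP]; exact hX2 k) (he_bi Q hQ1) hQ2
  have h1 := pk_tr_le P' Q (θ := 1 / 4) (by norm_num)
  have h2 := pk_tr_le W X (θ := 32) (by norm_num)
  rw [hWX] at h2
  have h3 := pk_nsq_contr hW
  have h4 : (2 : ℝ) ^ 20 * Fintype.card α < m := by exact_mod_cast hm
  have h5 : (0 : ℝ) < m := by exact_mod_cast hm0
  have h6 := nsq_nonneg P
  push_cast at hA
  norm_num at hA h1 h2 h4 hQ3 hV2
  linarith

end Crest.Agent.R073
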