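import Crest.Agent.R073.Defs

/-! Row 73: existence of universal C⋆-algebras. -/

set_option autoImplicit false

open Crest.AnalysisR.CStarEmbedding
open scoped ENNReal

namespace Crest.Agent.R073

namespace Univ

/-- formal noncommutative polynomials in generators and their adjoints -/
abbrev Term (ι : Type) : Type := FreeAlgebra ℂ (ι ⊕ ι)

/-- evaluation -/
noncomputable def ev {ι B : Type} [CStarAlgebra B] (g : ι → B) : Term ι →ₐ[ℂ] B :=
  FreeAlgebra.lift ℂ (Sum.elim g fun i => star (g i))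

theorem ev_inl {ι B : Type} [CStarAlgebra B] (g : ι → B) (i : ι) :
    ev g (FreeAlgebra.ι ℂ (Sum.inl i)) = g i := by simp [ev]

theorem ev_inr {ι B : Type} [CStarAlgebra B] (g : ι → B) (i : ι) :
    ev g (FreeAlgebra.ι ℂ (Sum.inr i)) = star (g i) := by simp [ev]

theorem map_ev {ι A B : Type} [CStarAlgebra A] [CStarAlgebra B] (φ : A →⋆ₐ[ℂ] B) (g : ι → A)
    (g' : ι → B) (h : ∀ i, φ (g i) = g' i) (x : Term ι) : φ (ev g x) = ev g' x := by
  induction x using FreeAlgebra.induction with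
  | grade0 r => simp [AlgHomClass.commutes]
  | grade1 i =>
    cases i with
    | inl i => rw [ev_inl, ev_inl, h]
    | inr i => rw [ev_inr, ev_inr, map_star, h]
  | mul a b ha hb => simp only [map_mul, ha, hb]
  | add a b ha hb => simp only [map_add, ha, hb]

theorem exists_ev {ι A : Type} [CStarAlgebra A] (g : ι → A) {a : A}
    (ha : a ∈ StarAlgebra.adjoin ℂ (Set.range g)) : ∃ x, ev g x = a := by
  have h : Algebra.adjoin ℂ (Set.range g ∪ star (Set.range g)) ≤ (ev g).range := by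
    rw [Algebra.adjoin_le_iff]
    rintro y (⟨i, rfl⟩ | hy)
    · exact ⟨_, ev_inl g i⟩
    · obtain ⟨i, hi⟩ := Set.mem_star.1 hy
      refine ⟨FreeAlgebra.ι ℂ (Sum.inr i), ?_⟩
      show ev g _ = y
      rw [ev_inr, hi, star_star]
  exact h ha

theorem ev_mem {ι A : Type} [CStarAlgebra A] (g : ι → A) (x : Term ι) :
    ev g x ∈ StarAlgebra.adjoin ℂ (Set.range g) := by
  induction x using FreeAlgebra.induction with
  | grade0 r => rw [AlgHom.commutes]; exact StarSubalgebra.algebraMap_mem _ _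
  | grade1 i =>
    cases i with
    | inl i => rw [ev_inl]; exact StarAlgebra.subset_adjoin _ _ ⟨i, rfl⟩
    | inr i => rw [ev_inr]; exact star_mem (StarAlgebra.subset_adjoin _ _ ⟨i, rfl⟩)
  | mul a b ha hb => rw [map_mul]; exact mul_mem ha hb
  | add a b ha hb => rw [map_add]; exact add_mem ha hb

theorem closed_induction {ι A : Type} [CStarAlgebra A] (g : ι → A)
    (hg : (StarAlgebra.adjoin ℂ (Set.range g)).topologicalClosure = ⊤) {S : Set A}
    (hS : IsClosed S) (h : ∀ x, ev g x ∈ S) (a : A) : a ∈ S := by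
  have h1 : a ∈ closure ((StarAlgebra.adjoin ℂ (Set.range g) : StarSubalgebra ℂ A) : Set A) := by
    have : a ∈ (StarAlgebra.adjoin ℂ (Set.range g)).topologicalClosure := by rw [hg]; trivial
    exact this
  refine closure_minimal ?_ hS h1
  intro y hy
  obtain ⟨x, rfl⟩ := exists_ev g hy
  exact h x

/-- the C⋆-subalgebra generated by a family -/
theorem exists_gen {ι P : Type} [CStarAlgebra P] (G : ι → P) :
    ∃ (A : Type) (_ : CStarAlgebra A) (g : ι → A) (j : A →⋆ₐ[ℂ] P), Function.Injective j ∧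
      (∀ i, j (g i) = G i) ∧ (StarAlgebra.adjoin ℂ (Set.range g)).topologicalClosure = ⊤ := by
  let S := (StarAlgebra.adjoin ℂ (Set.range G)).topologicalClosure
  have : IsClosed (S : Set P) := StarSubalgebra.isClosed_topologicalClosure _
  let g : ι → S := fun i =>
    ⟨G i, StarSubalgebra.le_topologicalClosure _ (StarAlgebra.subset_adjoin _ _ ⟨i, rfl⟩)⟩
  refine ⟨S, inferInstance, g, S.subtype, Subtype.val_injective, fun _ => rfl, ?_⟩
  rw [eq_top_iff]
  intro a _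
  show a ∈ closure ((StarAlgebra.adjoin ℂ (Set.range g) : StarSubalgebra ℂ S) : Set S)
  rw [closure_subtype]
  refine closure_mono ?_ a.2
  intro y hy
  obtain ⟨x, rfl⟩ := exists_ev G hy
  exact ⟨ev g x, ev_mem g x, map_ev S.subtype g G (fun _ => rfl) x⟩

theorem cont {A B : Type} [CStarAlgebra A] [CStarAlgebra B] (φ : A →⋆ₐ[ℂ] B) : Continuous φ :=
  AddMonoidHomClass.continuous_of_bound φ 1 fun a => by
    rw [one_mul]; exact NonUnitalStarAlgHom.norm_apply_le φ a

theorem exists_ext {ι A B : Type} [CStarAlgebra A] [CStarAlgebra B] (g : ι → A)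
    (hg : (StarAlgebra.adjoin ℂ (Set.range g)).topologicalClosure = ⊤) (g' : ι → B)
    (h : ∀ x, ‖ev g' x‖ ≤ 2 * ‖ev g x‖) : ∃ φ : A →⋆ₐ[ℂ] B, ∀ i, φ (g i) = g' i := by
  obtain ⟨C, _, c, j, hj, hjc, hc⟩ := exists_gen (fun i => (g i, g' i))
  let p : C →⋆ₐ[ℂ] A := (StarAlgHom.fst ℂ A B).comp j
  let q : C →⋆ₐ[ℂ] B := (StarAlgHom.snd ℂ A B).comp j
  have hp : ∀ i, p (c i) = g i := fun i => congrArg Prod.fst (hjc i)
  have hq : ∀ i, q (c i) = g' i := fun i => congrArg Prod.snd (hjc i)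
  have hle : ∀ y, ‖q y‖ ≤ 2 * ‖p y‖ := by
    refine closed_induction c hc (S := {y | ‖q y‖ ≤ 2 * ‖p y‖}) ?_ fun x => ?_
    · exact isClosed_le (cont q).norm (continuous_const.mul (cont p).norm)
    · show ‖q (ev c x)‖ ≤ 2 * ‖p (ev c x)‖
      rw [map_ev p c g hp, map_ev q c g' hq]
      exact h x
  have hinj : Function.Injective p := by
    rw [injective_iff_map_eq_zero]
    intro y hy
    have h1 := hle y
    rw [hy, norm_zero, mul_zero, norm_le_zero_iff] at h1
    apply hj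
    rw [map_zero]
    exact Prod.ext hy h1
  have hsurj : Function.Surjective p := by
    intro a
    refine closed_induction g hg (S := Set.range p)
      (NonUnitalStarAlgHom.isometry p hinj).isClosedEmbedding.isClosed_range (fun x => ?_) a
    exact ⟨ev c x, map_ev p c g hp x⟩
  let e := StarAlgEquiv.ofBijective p ⟨hinj, hsurj⟩
  refine ⟨q.comp (e.symm : A →⋆ₐ[ℂ] C), fun i => ?_⟩
  have : e.symm (g i) = c i := by
    rw [← hp i]
    exact e.symm_apply_apply (c i)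
  show q (e.symm (g i)) = g' i
  rw [this, hq]

theorem norm_one_le' (B : Type) [CStarAlgebra B] : ‖(1 : B)‖ ≤ 1 :=
  (IsStarProjection.one _).norm_le

theorem exists_bound {ι : Type} (x : Term ι) : ∃ M : ℝ, ∀ (B : Type) [CStarAlgebra B] (g : ι → B),
    (∀ i, ‖g i‖ ≤ 1) → ‖ev g x‖ ≤ M := by
  induction x using FreeAlgebra.induction with
  | grade0 r =>
    refine ⟨‖r‖, fun B _ g _ => ?_⟩
    rw [AlgHom.commutes, Algebra.algebraMap_eq_smul_one, norm_smul]
    exact mul_le_of_le_one_right (norm_nonneg _) (norm_one_le' B)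
  | grade1 i =>
    refine ⟨1, fun B _ g hg => ?_⟩
    cases i with
    | inl i => rw [ev_inl]; exact hg i
    | inr i => rw [ev_inr, norm_star]; exact hg i
  | mul a b ha hb =>
    obtain ⟨M, hM⟩ := ha
    obtain ⟨M', hM'⟩ := hb
    refine ⟨M * M', fun B _ g hg => ?_⟩
    rw [map_mul]
    exact (norm_mul_le _ _).trans (mul_le_mul (hM B g hg) (hM' B g hg) (norm_nonneg _)
      ((norm_nonneg _).trans (hM B g hg)))
  | add a b ha hb =>
    obtain ⟨M, hM⟩ := ha
    obtain ⟨M', hM'⟩ := hb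
    refine ⟨M + M', fun B _ g hg => ?_⟩
    rw [map_add]
    exact (norm_add_le _ _).trans (add_le_add (hM B g hg) (hM' B g hg))

/-- a nonzero representation of the relations -/
structure Rep (ι : Type) (Rel : ∀ (B : Type) [CStarAlgebra B], (ι → B) → Prop) : Type 1 where
  /-- carrier -/
  B : Type
  [alg : CStarAlgebra B]
  [nt : Nontrivial B]
  /-- generators -/
  g : ι → B
  rel : Rel B g

attribute [instance] Rep.alg Rep.nt

noncomputable instance lpCStar {I : Type} (D : I → Type) [∀ i, CStarAlgebra (D i)]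
    [∀ i, Nontrivial (D i)] : CStarAlgebra (lp D ∞) where

/-- coordinates -/
noncomputable def lpEval {I : Type} (D : I → Type) [∀ i, CStarAlgebra (D i)]
    [∀ i, Nontrivial (D i)] (n : I) : lp D ∞ →⋆ₐ[ℂ] D n where
  toFun f := f n
  map_one' := rfl
  map_mul' _ _ := rfl
  map_zero' := rfl
  map_add' _ _ := rfl
  commutes' _ := rfl
  map_star' _ := rfl

theorem exists_prod {I ι : Type} (D : I → Type) [∀ i, CStarAlgebra (D i)] [∀ i, Nontrivial (D i)]
    (g : ∀ n, ι → D n) (hg : ∀ n i, ‖g n i‖ ≤ 1) :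
    ∃ (P : Type) (_ : CStarAlgebra P) (G : ι → P) (π : ∀ n, P →⋆ₐ[ℂ] D n),
      (∀ n i, π n (G i) = g n i) ∧ ∀ a b, (∀ n, π n a = π n b) → a = b := by
  refine ⟨lp D ∞, inferInstance, fun i => ⟨fun n => g n i, memℓp_infty ⟨1, ?_⟩⟩, lpEval D,
    fun _ _ => rfl, fun a b h => lp.ext (funext h)⟩
  rintro _ ⟨n, rfl⟩
  exact hg n i

theorem norm_le_one_of_isom {B : Type} [CStarAlgebra B] {s : B} (h : star s * s = 1) : ‖s‖ ≤ 1 := by
  have h1 : ‖s‖ * ‖s‖ ≤ 1 := by
    rw [← CStarRing.norm_star_mul_self, h]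
    exact norm_one_le' B
  nlinarith [norm_nonneg s]

end Univ

open Univ

theorem exists_universal (ι : Type) (Rel : ∀ (B : Type) [CStarAlgebra B], (ι → B) → Prop)
    (hbdd : ∀ (B : Type) [CStarAlgebra B] (g : ι → B), Rel B g → ∀ i, ‖g i‖ ≤ 1)
    (hne : ∃ (B : Type) (_ : CStarAlgebra B) (_ : Nontrivial B) (g : ι → B), Rel B g) :
    ∃ (A : Type) (_ : CStarAlgebra A) (g : ι → A),
      (StarAlgebra.adjoin ℂ (Set.range g)).topologicalClosure = ⊤ ∧
      (∀ (B : Type) [CStarAlgebra B] (g' : ι → B), Rel B g' →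
        ∃ φ : A →⋆ₐ[ℂ] B, ∀ i, φ (g i) = g' i) ∧
      ∀ a b : A, (∀ (B : Type) [CStarAlgebra B] (g' : ι → B) (φ : A →⋆ₐ[ℂ] B), Rel B g' →
        (∀ i, φ (g i) = g' i) → φ a = φ b) → a = b := by
  obtain ⟨B₀, _, _, g₀, h₀⟩ := hne
  have : Nonempty (Rep ι Rel) := ⟨⟨B₀, g₀, h₀⟩⟩
  have hch : ∀ x : Term ι, ∃ r : Rep ι Rel, ∀ r' : Rep ι Rel, ‖ev r'.g x‖ ≤ 2 * ‖ev r.g x‖ := by
    intro x
    obtain ⟨M, hM⟩ := exists_bound x
    have hb : BddAbove (Set.range fun r : Rep ι Rel => ‖ev r.g x‖) :=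
      ⟨M, by rintro _ ⟨r, rfl⟩; exact hM _ _ (hbdd _ _ r.rel)⟩
    by_cases hS : (⨆ r : Rep ι Rel, ‖ev r.g x‖) ≤ 0
    · exact ⟨⟨B₀, g₀, h₀⟩, fun r' => ((le_ciSup hb r').trans hS).trans (by positivity)⟩
    · obtain ⟨r, hr⟩ := exists_lt_of_lt_ciSup (f := fun r : Rep ι Rel => ‖ev r.g x‖)
        (b := (⨆ r : Rep ι Rel, ‖ev r.g x‖) / 2) (by linarith)
      exact ⟨r, fun r' => (le_ciSup hb r').trans (by linarith)⟩
  choose r hr using hch
  obtain ⟨P, _, G, π, hπ, hsep⟩ := exists_prod (fun x : Term ι => (r x).B) (fun x => (r x).g)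
    (fun x => hbdd _ _ (r x).rel)
  obtain ⟨A, _, g, j, hj, hjg, hg⟩ := exists_gen G
  have hφ : ∀ x i, ((π x).comp j) (g i) = (r x).g i := fun x i => by
    rw [StarAlgHom.comp_apply, hjg, hπ]
  refine ⟨A, inferInstance, g, hg, fun B _ g' h' => exists_ext g hg g' fun x => ?_,
    fun a b h => hj (hsep _ _ fun x => h _ _ ((π x).comp j) (r x).rel (hφ x))⟩
  rcases subsingleton_or_nontrivial B with hB | hB
  · rw [Subsingleton.elim (ev g' x) 0, norm_zero]
    positivity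
  · refine (hr x ⟨B, g', h'⟩).trans (mul_le_mul_of_nonneg_left ?_ (by norm_num))
    rw [← map_ev ((π x).comp j) g (r x).g (hφ x) x]
    exact NonUnitalStarAlgHom.norm_apply_le _ _

theorem exists_fullGroup (G : Type) [Group G] :
    ∃ (A : Type) (_ : CStarAlgebra A) (u : G →* unitary A), IsFullGroupCStar A u := by
  obtain ⟨A, _, g, hg, hext, hsep⟩ := exists_universal G
    (fun B _ g => g 1 = 1 ∧ (∀ a b, g (a * b) = g a * g b) ∧ ∀ a, star (g a) = g a⁻¹)
    (fun B _ g h a => norm_le_one_of_isom (by rw [h.2.2, ← h.2.1, inv_mul_cancel, h.1]))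
    ⟨ℂ, inferInstance, inferInstance, fun _ => 1, rfl, fun _ _ => (mul_one _).symm,
      fun _ => star_one _⟩
  have h1 : g 1 = 1 := hsep _ _ fun B _ g' φ h hφ => by rw [hφ, h.1, map_one]
  have h2 : ∀ a b, g (a * b) = g a * g b := fun a b =>
    hsep _ _ fun B _ g' φ h hφ => by rw [map_mul, hφ, hφ, hφ, h.2.1]
  have h3 : ∀ a, star (g a) = g a⁻¹ := fun a =>
    hsep _ _ fun B _ g' φ h hφ => by rw [map_star, hφ, hφ, h.2.2]
  refine ⟨A, inferInstance,
    { toFun := fun a => ⟨g a, by rw [h3, ← h2, inv_mul_cancel, h1],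
        by rw [h3, ← h2, mul_inv_cancel, h1]⟩
      map_one' := Subtype.ext h1
      map_mul' := fun a b => Subtype.ext (h2 a b) }, hg, fun B _ w => ?_⟩
  refine hext B (fun a => (w a : B)) ⟨by simp, fun a b => by simp, fun a => ?_⟩
  rw [map_inv]
  rfl

namespace Univ

/-- the isometry attached to an injection of the index set -/
theorem exists_shift {X H : Type} [NormedAddCommGroup H] [InnerProductSpace ℂ H] [CompleteSpace H]
    (e : HilbertBasis X ℂ H) (σ : X → X) (hσ : Function.Injective σ) :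
    ∃ t : H →L[ℂ] H, star t * t = 1 ∧ ∀ x, t (e x) = e (σ x) := by
  classical
  have ho : Orthonormal ℂ (e ∘ σ) := e.orthonormal.comp σ hσ
  let T : H →ₗᵢ[ℂ] H := ho.orthogonalFamily.linearIsometry.comp e.repr.toLinearIsometry
  refine ⟨T.toContinuousLinearMap, ?_, fun x => ?_⟩
  · ext v
    refine ext_inner_left ℂ fun w => ?_
    rw [mul_apply_eq_comp, ContinuousLinearMap.star_eq_adjoint,
      ContinuousLinearMap.adjoint_inner_right]
    exact T.inner_map_map w v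
  · show ho.orthogonalFamily.linearIsometry (e.repr (e x)) = _
    rw [e.repr_self, OrthogonalFamily.linearIsometry_apply_single]
    simp

theorem star_apply_zero {X H : Type} [NormedAddCommGroup H] [InnerProductSpace ℂ H]
    [CompleteSpace H] (e : HilbertBasis X ℂ H) {σ : X → X} {t : H →L[ℂ] H}
    (ht : ∀ x, t (e x) = e (σ x)) {y : X} (hy : ∀ x, σ x ≠ y) : star t (e y) = 0 := by
  apply e.repr.injective
  ext x
  rw [e.repr_apply_apply, ContinuousLinearMap.star_eq_adjoint,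
    ContinuousLinearMap.adjoint_inner_right, ht, e.orthonormal.2 (hy x), map_zero]
  rfl

end Univ

/-- a concrete Cuntz pair with a unit vector `Ω` of "degree zero": the isometries raise a grading -/
theorem exists_cuntz_rep : ∃ (H : Type) (_ : NormedAddCommGroup H) (_ : InnerProductSpace ℂ H)
    (_ : CompleteSpace H) (t₁ t₂ : H →L[ℂ] H) (E : ℕ → Set H) (Ω : H),
    star t₁ * t₁ = 1 ∧ star t₂ * t₂ = 1 ∧ t₁ * star t₁ + t₂ * star t₂ = 1 ∧ ‖Ω‖ = 1 ∧ Ω ∈ E 0 ∧
    (∀ j, ∀ v ∈ E j, t₁ v ∈ E (j + 1) ∧ t₂ v ∈ E (j + 1)) ∧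
    ∀ j l, j ≠ l → ∀ v ∈ E j, ∀ w ∈ E l, inner ℂ v w = 0 := by
  let e : HilbertBasis (ℤ × ℕ) ℂ (lp (fun _ : ℤ × ℕ => ℂ) 2) := default
  let σ₁ : ℤ × ℕ → ℤ × ℕ := fun x => (x.1 + 1, 2 * x.2)
  let σ₂ : ℤ × ℕ → ℤ × ℕ := fun x => (x.1 + 1, 2 * x.2 + 1)
  have h₁ : Function.Injective σ₁ := by
    intro x y h
    simp only [σ₁, Prod.mk.injEq] at h
    exact Prod.ext (by omega) (by omega)
  have h₂ : Function.Injective σ₂ := by
    intro x y h
    simp only [σ₂, Prod.mk.injEq] at h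
    exact Prod.ext (by omega) (by omega)
  have h12 : ∀ x y, σ₁ x ≠ σ₂ y := by
    intro x y h
    simp only [σ₁, σ₂, Prod.mk.injEq] at h
    omega
  obtain ⟨t₁, a₁, b₁⟩ := exists_shift e σ₁ h₁
  obtain ⟨t₂, a₂, b₂⟩ := exists_shift e σ₂ h₂
  refine ⟨_, inferInstance, inferInstance, inferInstance, t₁, t₂,
    fun j => {v | ∃ m, v = e (j, m)}, e (0, 0), a₁, a₂, ?_, e.orthonormal.1 _, ⟨0, rfl⟩, ?_, ?_⟩
  · refine ContinuousLinearMap.ext_on (s := Set.range e)
      (Submodule.dense_iff_topologicalClosure_eq_top.2 e.dense_span) ?_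
    rintro _ ⟨y, rfl⟩
    have hy : (∃ x, σ₁ x = y) ∨ ∃ x, σ₂ x = y := by
      rcases Nat.even_or_odd' y.2 with ⟨k, hk | hk⟩
      · exact Or.inl ⟨(y.1 - 1, k), Prod.ext (by simp [σ₁]) hk.symm⟩
      · exact Or.inr ⟨(y.1 - 1, k), Prod.ext (by simp [σ₂]) hk.symm⟩
    simp only [add_apply, mul_apply_eq_comp,
      one_apply_eq_self]
    rcases hy with ⟨x, rfl⟩ | ⟨x, rfl⟩
    · have h3 : star t₁ (t₁ (e x)) = e x := DFunLike.congr_fun a₁ (e x)
      rw [star_apply_zero e b₂ (fun x' => (h12 x x').symm), map_zero, add_zero, ← b₁, h3]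
    · have h3 : star t₂ (t₂ (e x)) = e x := DFunLike.congr_fun a₂ (e x)
      rw [star_apply_zero e b₁ (fun x' => h12 x' x), map_zero, zero_add, ← b₂, h3]
  · rintro j _ ⟨m, rfl⟩
    exact ⟨⟨2 * m, by rw [b₁]; simp [σ₁]⟩, ⟨2 * m + 1, by rw [b₂]; simp [σ₂]⟩⟩
  · rintro j l hjl _ ⟨m, rfl⟩ _ ⟨m', rfl⟩
    refine e.orthonormal.2 fun h => hjl ?_
    simp only [Prod.mk.injEq] at h
    exact_mod_cast h.1

theorem exists_cuntz : ∃ (O : Type) (_ : CStarAlgebra O) (s₁ s₂ : O), IsCuntzTwo O s₁ s₂ := by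
  obtain ⟨A, _, g, hg, hext, hsep⟩ := exists_universal (Fin 2)
    (fun B _ g => star (g 0) * g 0 = 1 ∧ star (g 1) * g 1 = 1 ∧
      g 0 * star (g 0) + g 1 * star (g 1) = 1)
    (fun B _ g h i => by
      fin_cases i
      · exact norm_le_one_of_isom h.1
      · exact norm_le_one_of_isom h.2.1)
    (by
      obtain ⟨H, _, _, _, t₁, t₂, E, Ω, h1, h2, h3, h4, -⟩ := exists_cuntz_rep
      have : Nontrivial H := ⟨Ω, 0, fun h => by simp [h] at h4⟩
      exact ⟨H →L[ℂ] H, inferInstance, inferInstance, ![t₁, t₂], h1, h2, h3⟩)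
  refine ⟨A, inferInstance, g 0, g 1, ?_, ?_, ?_, ?_, fun B _ t₁ t₂ h1 h2 h3 => ?_⟩
  · exact hsep _ _ fun B _ g' φ h hφ => by rw [map_mul, map_star, hφ, h.1, map_one]
  · exact hsep _ _ fun B _ g' φ h hφ => by rw [map_mul, map_star, hφ, h.2.1, map_one]
  · exact hsep _ _ fun B _ g' φ h hφ => by
      rw [map_add, map_mul, map_mul, map_star, map_star, hφ, hφ, h.2.2, map_one]
  · have : ({g 0, g 1} : Set A) = Set.range g := by
      ext a
      simp [Fin.exists_fin_two, eq_comm]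
    rw [this, hg]
  · obtain ⟨φ, hφ⟩ := hext B ![t₁, t₂] ⟨h1, h2, h3⟩
    exact ⟨φ, hφ 0, hφ 1⟩

end Crest.Agent.R073
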